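import Vale.Agent.P004Z.Bo.Uni
import Vale.Agent.P004Z.St

/-! # P004Z, row GU: Green functions are unique up to constants -/

open Complex Filter Topology Metric InnerProductSpace CongruenceSubgroup
open UpperHalfPlane hiding I I_re I_im
open scoped Real MatrixGroups ComplexConjugate Modular

noncomputable section

namespace Vale.Agent.P004Z.Bo

theorem an_cmp {Ψ : ℍ → ℂ} (ha : ∀ w : ℍ, AnalyticAt ℂ (Ψ ∘ ofComplex) w) (γ : SL(2, ℤ))
    {w : ℂ} (hw : 0 < w.im) : AnalyticAt ℂ (fun z => Ψ (γ • ofComplex z)) w := by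
  have := AnalyticAt.comp (f := fun z => ((γ • ofComplex z : ℍ) : ℂ)) (x := w)
    (ha (γ • ofComplex w)) (an_smul γ ⟨w, hw⟩)
  simpa [Function.comp_def] using this

/-- the maximum principle on a modular curve -/
theorem mxp {Γ : Subgroup SL(2, ℤ)} [Γ.FiniteIndex] {Ψ : ℍ → ℂ}
    (ha : ∀ w : ℍ, AnalyticAt ℂ (Ψ ∘ ofComplex) w) (hi : ∀ γ ∈ Γ, ∀ z, ‖Ψ (γ • z)‖ = ‖Ψ z‖)
    (hb : ∀ γ : SL(2, ℤ), ∃ C y : ℝ, ∀ z : ℍ, y < z.im → ‖Ψ (γ • z)‖ ≤ C) :
    ∃ c, ∀ z, ‖Ψ z‖ = c := by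
  have r : ∀ γ : SL(2, ℤ), ∃ q : SL(2, ℤ) ⧸ Γ, ∀ z, ‖Ψ (γ • z)‖ = ‖Ψ (q.out⁻¹ • z)‖ := fun γ => by
    obtain ⟨h, e⟩ := QuotientGroup.mk_out_eq_mul Γ γ⁻¹
    refine ⟨(γ⁻¹ : SL(2, ℤ)), fun z => ?_⟩
    rw [e, mul_inv_rev, inv_inv, mul_smul, hi _ (Γ.inv_mem h.2)]
  choose C y hC using hb
  obtain ⟨Y, hY⟩ := Finite.bddAbove_range fun q : SL(2, ℤ) ⧸ Γ => y q.out⁻¹
  set K : Set ℂ := Set.Icc (-1) 1 ×ℂ Set.Icc (1 / 2) (max Y 1) with hK
  have p : ∀ w ∈ K, 0 < w.im := fun w hw => lt_of_lt_of_le (by norm_num) hw.2.1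
  choose m m1 m2 using fun q : SL(2, ℤ) ⧸ Γ => (isCompact_Icc.reProdIm isCompact_Icc).exists_isMaxOn
    (s := K) (f := fun z => ‖Ψ (q.out⁻¹ • ofComplex z)‖) ⟨I, by simp [hK, mem_reProdIm]; norm_num⟩
    fun w hw => (an_cmp ha _ (p w hw)).continuousAt.norm.continuousWithinAt
  obtain ⟨q0, h0⟩ := Finite.exists_max fun q => ‖Ψ (q.out⁻¹ • ofComplex (m q))‖
  set w0 := q0.out⁻¹ • ofComplex (m q0)
  have b1 : ∀ (γ : SL(2, ℤ)) (z : ℍ), 1 / 2 ≤ z.im → z.im ≤ max Y 1 → ‖Ψ (γ • z)‖ ≤ ‖Ψ w0‖ :=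
    fun γ z h1 h2 => by
      obtain ⟨q, e⟩ := r (γ * ModularGroup.T ^ ⌊z.re⌋)
      have := e (ModularGroup.T ^ (-⌊z.re⌋) • z)
      rw [← mul_smul, mul_assoc, ← zpow_add, add_neg_cancel, zpow_zero, mul_one] at this
      refine this.trans_le (le_trans ?_ (h0 q))
      have a := ModularGroup.re_T_zpow_smul z (-⌊z.re⌋)
      have b := ModularGroup.im_T_zpow_smul z (-⌊z.re⌋)
      have := m2 q (show ((ModularGroup.T ^ (-⌊z.re⌋) • z : ℍ) : ℂ) ∈ K from
        ⟨by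
          simp only [Set.mem_preimage, coe_re, a, Int.cast_neg]
          constructor <;> linarith [Int.floor_le z.re, Int.lt_floor_add_one z.re],
        by simpa only [Set.mem_preimage, coe_im, b] using ⟨h1, h2⟩⟩)
      simpa using this
  have b2 : ∀ (γ : SL(2, ℤ)) (z : ℍ), max Y 1 ≤ z.im → ‖Ψ (γ • z)‖ ≤ ‖Ψ w0‖ := fun γ z h1 => by
    obtain ⟨q, e⟩ := r γ
    have u : ∀ w : ℂ, 0 ≤ w.re → 0 < (I * (w + (max Y 1 : ℝ))).im := fun w hw => by
      simp only [mul_im, I_re, I_im, add_re, ofReal_re, zero_mul, one_mul, zero_add]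
      linarith [le_max_right Y 1]
    have v : ∀ w : ℂ, 0 ≤ w.re → (ofComplex (I * (w + (max Y 1 : ℝ)))).im = w.re + max Y 1 :=
      fun w hw => by
        rw [ofComplex_apply_of_im_pos (u w hw)]
        simp
    have d : ∀ w : ℂ, 0 < w.re →
        ‖Ψ (q.out⁻¹ • ofComplex (I * (w + (max Y 1 : ℝ))))‖ ≤ C q.out⁻¹ := fun w hw =>
      hC _ _ (by
        rw [v w hw.le]
        linarith [le_max_left Y 1, hY ⟨q, rfl⟩])
    have := PhragmenLindelof.right_half_plane_of_bounded_on_real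
      (f := fun w => Ψ (q.out⁻¹ • ofComplex (I * (w + (max Y 1 : ℝ))))) (C := ‖Ψ w0‖)
      (z := -I * z - (max Y 1 : ℝ))
      (DifferentiableOn.diffContOnCl fun w hw => ((an_cmp ha _ (u w (by
        rwa [closure_setOfPred_lt_re] at hw))).differentiableAt.comp w
          (f := fun w => I * (w + (max Y 1 : ℝ))) (by fun_prop)).differentiableWithinAt)
      ⟨0, two_pos, 0, .of_bound (C q.out⁻¹) (eventually_inf_principal.2 (.of_forall fun w hw => by
        simpa using d w hw))⟩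
      ⟨C q.out⁻¹, (eventually_gt_atTop 0).mono fun x hx => d x hx⟩
      (fun x => b1 _ _ (by
        rw [v _ (by simp)]
        simp only [mul_re, ofReal_re, I_re, ofReal_im, I_im]
        linarith [le_max_right Y 1]) (by rw [v _ (by simp)]; simp)) (by simpa using h1)
    rwa [sub_add_cancel, ← mul_assoc, mul_neg, I_mul_I, neg_neg, one_mul, ofComplex_apply,
      ← e] at this
  have b3 : ∀ z, ‖Ψ z‖ ≤ ‖Ψ w0‖ := fun z => by
    obtain ⟨g, hg⟩ := ModularGroup.exists_smul_mem_fd z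
    rw [← inv_smul_smul g z]
    rcases le_total (g • z).im (max Y 1) with h | h
    · refine b1 _ _ ?_ h
      have := ModularGroup.three_le_four_mul_im_sq_of_mem_fd hg
      nlinarith [(g • z).im_pos]
    · exact b2 _ _ h
  refine ⟨‖Ψ w0‖, fun z => ?_⟩
  simpa using norm_eqOn_of_isPreconnected_of_isMaxOn (f := Ψ ∘ ofComplex) (U := {z | 0 < z.im})
    (c := w0) (convex_halfSpace_im_gt 0).isPreconnected isOpen_upperHalfPlaneSet
    (fun w hw => (ha ⟨w, hw⟩).differentiableAt.differentiableWithinAt) w0.im_pos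
    (fun w _ => by simpa using b3 _) z.im_pos

/-- **GU** -/
theorem gu : GU := by
  intro N A Φ Φ' hN h h'
  have : NeZero N := ⟨hN.ne'⟩
  choose a b a1 b1 e using h.loc
  choose a' b' a2 b2 e' using h'.loc
  set D : ℍ → ℂ := fun w => a' w w - a w w + conj (b' w w - b w w) with hD
  have d1 : ∀ z, A z = 0 → D z = Φ' z - Φ z := fun z hz => by
    rw [(e z).self_of_nhds.2 (.inr hz), (e' z).self_of_nhds.2 (.inr hz), hD]
    simp only [map_sub (starRingEnd ℂ)]
    ring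
  have d2 : ∀ w, ∀ᶠ z : ℍ in 𝓝 w, D z = a' w z - a w z + conj (b' w z - b w z) := fun w => by
    filter_upwards [e w, e' w] with z h1 h2
    by_cases c : z = w
    · rw [c]
    rw [d1 z (h1.1 c), h1.2 (.inl c), h2.2 (.inl c), map_sub (starRingEnd ℂ)]
    ring
  have d3 : Continuous D := continuous_iff_continuousAt.2 fun w =>
    ContinuousAt.congr (f := fun z : ℍ => a' w z - a w z + conj (b' w z - b w z))
      (ContinuousAt.comp (g := fun z => a' w z - a w z + conj (b' w z - b w z))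
        (((a2 w).sub (a1 w)).continuousAt.add
          (continuous_conj.continuousAt.comp ((b2 w).sub (b1 w)).continuousAt))
        continuous_coe.continuousAt) (EventuallyEq.symm (d2 w))
  have d4 : ∀ γ ∈ Gamma0 N, ∀ w, D (γ • w) = D w := fun γ hγ w =>
    tendsto_nhds_unique_of_frequently_eq (f := fun z => D (γ • z))
      (d3.comp (continuous_const_smul (γ : GL (Fin 2) ℝ))).continuousAt d3.continuousAt
      (((fr_ne w).and_eventually (e w)).mono fun z hz => by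
        have c := hz.2.1 hz.1
        simp only [d1 z c, d1 _ ((h.dv γ hγ z).trans c), h.inv γ hγ z c, h'.inv γ hγ z c])
  have d5 : ∀ k : ℂ, ∃ c, ∀ z, (k * D z).re = c := fun k => by
    obtain ⟨Ψ, p1, p2⟩ := Loc.ex (n := 0) (φ := fun z => (k * D z).re) fun w =>
      ⟨fun z => (k * (a' w z - a w z) + conj k * (b' w z - b w z)).re,
        AnalyticAt.harmonicAt_re (by have := a1 w; have := a2 w; have := b1 w; have := b2 w; fun_prop),
        (d2 w).mono fun z hz => ⟨fun _ => rfl, fun _ => by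
          simp [hz]
          ring⟩⟩
    obtain ⟨c, hc⟩ := mxp (Γ := Gamma0 N) (fun w => MAt.an (p1 w))
      (fun γ hγ z => by rw [p2 _ rfl, p2 _ rfl, d4 γ hγ]) fun γ => by
        obtain ⟨C, y, c1⟩ := h.bdd γ
        obtain ⟨C', y', c2⟩ := h'.bdd γ
        refine ⟨Real.exp (‖k‖ * (C' + C)), max y y', fun z hz => ?_⟩
        have c3 := c1 z ((le_max_left _ _).trans_lt hz)
        rw [p2 _ rfl, Real.exp_le_exp, d1 _ c3.1]
        refine (re_le_norm _).trans ((norm_mul_le _ _).trans ?_)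
        gcongr
        exact norm_sub_le_of_le (c2 z ((le_max_right _ _).trans_lt hz)).2 c3.2
    exact ⟨Real.log c, fun z => by rw [← hc z, p2 _ rfl, Real.log_exp]⟩
  obtain ⟨c1, h1⟩ := d5 1
  obtain ⟨c2, h2⟩ := d5 (-I)
  refine ⟨c1 + c2 * I, fun z hz => ?_⟩
  rw [← sub_eq_iff_eq_add', ← d1 z hz, ← h1 z, ← h2 z]
  simp

end Vale.Agent.P004Z.Bo
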