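import Vale.Agent.P004Z.Bo.An0

/-! # P004Z, block G4b: integrality of the product expansion -/

open Complex Filter Topology Metric PowerSeries
open scoped Real

noncomputable section

namespace Vale.Agent.P004Z.Bo

/-- `X d / dX` -/
def th (f : ℂ⟦X⟧) : ℂ⟦X⟧ := X * d⁄dX ℂ f

theorem th_coeff (f : ℂ⟦X⟧) (n : ℕ) : coeff n (th f) = n * coeff n f := by
  cases n
  · simp [th]
  · simp [th, coeff_succ_X_mul, coeff_derivative, mul_comm]

theorem th_mul (f g : ℂ⟦X⟧) : th (f * g) = th f * g + f * th g := by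
  simp only [th, Derivation.leibniz, smul_eq_mul]
  ring

theorem th_rec {ψ τ : ℂ⟦X⟧} (h : th ψ = ψ * τ) (h0 : coeff 0 τ = 0) (n : ℕ) :
    coeff (n + 1) ψ =
      (n + 1 : ℂ)⁻¹ * ∑ i ∈ Finset.range (n + 1), coeff i ψ * coeff (n + 1 - i) τ := by
  have := congrArg (coeff (n + 1)) h
  rw [th_coeff, coeff_mul, Finset.Nat.sum_antidiagonal_eq_sum_range_succ_mk,
    Finset.sum_range_succ, Nat.sub_self, h0, mul_zero, add_zero, Nat.cast_succ] at this
  rw [← this, inv_mul_cancel_left₀ (Nat.cast_add_one_ne_zero n)]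

theorem th_uniq {ψ τ v σ : ℂ⟦X⟧} (h : th ψ = ψ * τ) (h' : th v = v * σ) (h0 : coeff 0 τ = 0)
    {K : ℕ} (e : ∀ j ≤ K, coeff j τ = coeff j σ) (e0 : coeff 0 ψ = coeff 0 v) :
    ∀ n ≤ K, coeff n ψ = coeff n v := fun n => by
  induction n using Nat.strong_induction_on with | _ n ih => ?_
  intro hn
  rcases n with _ | n
  · exact e0
  rw [th_rec h h0, th_rec h' (e 0 K.zero_le ▸ h0)]
  refine congrArg _ (Finset.sum_congr rfl fun i hi => ?_)
  rw [ih i (Finset.mem_range.1 hi) ((Finset.mem_range.1 hi).le.trans hn), e _ (by omega)]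

/-- logarithmic derivatives of integral units -/
def Dl (O : Subring ℂ) : AddSubgroup ℂ⟦X⟧ where
  carrier := {τ | ∃ v ∈ IntS O, ∃ w ∈ IntS O, v * w = 1 ∧ constantCoeff v = 1 ∧ th v = v * τ}
  zero_mem' := ⟨1, one_mem _, 1, one_mem _, one_mul _, map_one _, by simp [th]⟩
  add_mem' := fun ⟨v, h1, w, h2, h3, h4, h5⟩ ⟨v', k1, w', k2, k3, k4, k5⟩ =>
    ⟨v * v', mul_mem h1 k1, w * w', mul_mem h2 k2, by rw [mul_mul_mul_comm, h3, k3, one_mul],
      by rw [map_mul, h4, k4, one_mul], by rw [th_mul, h5, k5]; ring⟩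
  neg_mem' := fun {τ} ⟨v, h1, w, h2, h3, h4, h5⟩ => ⟨w, h2, v, h1, (mul_comm _ _).trans h3,
    by simpa [h4] using congrArg constantCoeff h3, by
      have := th_mul v w
      rw [h3, h5, show th 1 = 0 by simp [th]] at this
      linear_combination -w * this - (th w + w * τ) * h3⟩

/-- the series `∑ x ^ m X ^ (n m)` -/
def geo (x : ℂ) (n : ℕ) : ℂ⟦X⟧ := mk fun j => if n ∣ j then x ^ (j / n) else 0

theorem geo_mem {O : Subring ℂ} {x : ℂ} (hx : x ∈ O) {n : ℕ} (hn : 0 < n) :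
    (n : ℂ⟦X⟧) * (geo x n - 1) ∈ Dl O := by
  have h : (1 - C x * X ^ n) * geo x n = 1 := by
    ext j
    rw [sub_mul, one_mul, mul_assoc, map_sub, coeff_C_mul, coeff_X_pow_mul', coeff_one]
    simp only [geo, coeff_mk]
    by_cases h : n ≤ j
    · obtain ⟨j, rfl⟩ := Nat.exists_eq_add_of_le' h
      simp only [if_pos h, Nat.add_sub_cancel, Nat.dvd_add_self_right, Nat.add_div_right _ hn,
        if_neg (show j + n ≠ 0 by omega)]
      split_ifs <;> ring
    · rcases j.eq_zero_or_pos with rfl | hj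
      · simp [h]
      · simp [h, hj.ne', show ¬ n ∣ j from fun d => h (Nat.le_of_dvd hj d)]
  refine neg_mem_iff.1 ⟨1 - C x * X ^ n, sub_mem (one_mem _) fun j => ?_, geo x n, fun j => ?_, h,
    by simp [hn.ne'], ?_⟩
  · rw [coeff_C_mul, coeff_X_pow]
    split_ifs
    exacts [mul_mem hx (one_mem _), mul_mem hx (zero_mem _)]
  · rw [geo, coeff_mk]
    split_ifs
    exacts [pow_mem hx _, zero_mem _]
  · have : th (1 - C x * X ^ n) = -(n • (C x * X ^ n)) := by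
      ext j
      rw [th_coeff, map_neg, map_nsmul, map_sub, coeff_C_mul, coeff_X_pow, coeff_one]
      split_ifs with h1 h2 h3 <;> simp [*]
      omega
    rw [this, nsmul_eq_mul]
    linear_combination (n : ℂ⟦X⟧) * h

variable {ι : Type} {s : Finset ι} {e : ι → ℤ} {ζ : ι → ℂ} {χ b : ℕ → ℤ} {g : ℂ}

/-- the coefficients of the logarithm -/
def lx (g : ℂ) (χ b : ℕ → ℤ) (j : ℕ) : ℂ :=
  g * ∑ i ∈ j.divisorsAntidiagonal, ((χ i.2 * b i.1 : ℤ) : ℂ) / i.2

theorem lx_th (j : ℕ) : coeff j (th (mk (lx g χ b))) =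
    g * (∑ n ∈ j.divisors, n * b n * χ (j / n) : ℤ) := by
  rw [th_coeff, coeff_mk, lx, mul_left_comm, Finset.mul_sum,
    Nat.sum_divisorsAntidiagonal fun n m => (j : ℂ) * (((χ m * b n : ℤ) : ℂ) / m)]
  push_cast
  refine congrArg _ (Finset.sum_congr rfl fun n hn => ?_)
  obtain ⟨⟨m, rfl⟩, h⟩ := Nat.mem_divisors.1 hn
  have : (m : ℂ) ≠ 0 := Nat.cast_ne_zero.2 (right_ne_zero_of_mul h)
  rw [Nat.mul_div_cancel_left _ (Nat.pos_of_mul_pos_right (Nat.pos_of_ne_zero h))]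
  push_cast
  field_simp

theorem int_of {O : Subring ℂ} (hζ : ∀ x, ζ x ∈ O)
    (hg : ∀ m : ℕ, ∑ x ∈ s, e x * ζ x ^ m = χ m * g) {ψ : ℂ⟦X⟧} (c : ℤ)
    (h : th ψ = ψ * (c • th (mk (lx g χ b)))) (h0 : coeff 0 ψ = 1) : ψ ∈ IntS O := fun K => by
  obtain ⟨v, h1, -, -, -, h2, h3⟩ : c • ∑ n ∈ Finset.Icc 1 K, ∑ x ∈ s,
      (b n * e x) • ((n : ℂ⟦X⟧) * (geo (ζ x) n - 1)) ∈ Dl O :=
    zsmul_mem (sum_mem fun n hn => sum_mem fun x _ =>
      zsmul_mem (geo_mem (hζ x) (Finset.mem_Icc.1 hn).1) _) _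
  rw [th_uniq h h3 (by simp [th]) (fun j hj => ?_) (by simpa [h2] using h0) K le_rfl]
  · exact h1 K
  rw [map_zsmul, map_zsmul, lx_th]
  congr 1
  simp only [map_sum, map_zsmul, ← nsmul_eq_mul, map_nsmul, map_sub, geo, coeff_mk, coeff_one]
  rcases j.eq_zero_or_pos with rfl | j0
  · simp
  rw [show j.divisors = (Finset.Icc 1 K).filter (· ∣ j) by
    ext n
    simp only [Nat.mem_divisors, Finset.mem_filter, Finset.mem_Icc]
    exact ⟨fun h => ⟨⟨Nat.pos_of_dvd_of_pos h.1 j0, (Nat.le_of_dvd j0 h.1).trans hj⟩, h.1⟩,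
      fun h => ⟨h.2, j0.ne'⟩⟩, Finset.sum_filter]
  push_cast
  rw [Finset.mul_sum]
  refine Finset.sum_congr rfl fun n _ => ?_
  split_ifs with h h'
  · omega
  · simp only [zsmul_eq_mul, nsmul_eq_mul, sub_zero, Int.cast_mul, Int.cast_natCast]
    rw [show g * (n * b n * χ (j / n)) = n * b n * (χ (j / n) * g) by ring, ← hg, Finset.mul_sum]
    exact Finset.sum_congr rfl fun x _ => by ring
  · omega
  · simp

theorem rat_of {r : ℚ} (hg : g ^ 2 = r) {ψ ψ' τ : ℂ⟦X⟧} (hτ : ∀ j, ∃ t : ℚ, coeff j τ = g * t)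
    (t0 : coeff 0 τ = 0) (h : th ψ = ψ * τ) (h' : th ψ' = ψ' * -τ) (h0 : coeff 0 ψ = 1)
    (h0' : coeff 0 ψ' = 1) (n : ℕ) :
    ∃ p : ℚ × ℚ, coeff n ψ = p.1 + p.2 * g ∧ coeff n ψ' = p.1 - p.2 * g := by
  induction n using Nat.strong_induction_on with | _ n ih => ?_
  rcases n with _ | n
  · exact ⟨(1, 0), by simp [h0], by simp [h0']⟩
  choose! p hp using ih
  choose t ht using hτ
  refine ⟨((n + 1 : ℚ)⁻¹ * ∑ i ∈ Finset.range (n + 1), (p i).2 * r * t (n + 1 - i),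
    (n + 1 : ℚ)⁻¹ * ∑ i ∈ Finset.range (n + 1), (p i).1 * t (n + 1 - i)), ?_, ?_⟩
  · rw [th_rec h t0]
    push_cast
    rw [mul_assoc, ← mul_add, Finset.sum_mul, ← Finset.sum_add_distrib]
    refine congrArg _ (Finset.sum_congr rfl fun i hi => ?_)
    rw [(hp i (Finset.mem_range.1 hi)).1, ht, ← hg]
    ring
  · rw [th_rec h' (by rw [map_neg, t0, neg_zero])]
    push_cast
    rw [mul_assoc, ← mul_sub, Finset.sum_mul, ← Finset.sum_sub_distrib]
    refine congrArg _ (Finset.sum_congr rfl fun i hi => ?_)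
    rw [(hp i (Finset.mem_range.1 hi)).2, map_neg, ht, ← hg]
    ring

theorem th_exp {S : ℂ → ℂ} (hS : AnalyticAt ℂ S 0) (c : ℤ) :
    th (tay fun q => exp (c * S q)) = tay (fun q => exp (c * S q)) * (c • th (tay S)) := by
  have a : AnalyticAt ℂ (fun q => exp (c * S q)) 0 := by fun_prop
  have : deriv (fun q => exp (c * S q)) =ᶠ[𝓝 0]
      (fun q => exp (c * S q)) * ((fun _ => (c : ℂ)) * deriv S) :=
    hS.eventually_analyticAt.mono fun q hq => (hq.differentiableAt.hasDerivAt.const_mul _).cexp.deriv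
  rw [th, ← tay_deriv, tay_congr this, tay_mul a (analyticAt_const.mul hS.deriv),
    tay_mul analyticAt_const hS.deriv, tay_deriv, tay_const, th, map_intCast]
  ring

/-- the traces of the powers of the product have integer coefficients -/
theorem tr_int (hζ : ∀ x, IsIntegral ℤ (ζ x)) (hg : ∀ m : ℕ, ∑ x ∈ s, e x * ζ x ^ m = χ m * g)
    {r : ℚ} (hr : g ^ 2 = r) {S : ℂ → ℂ} (hS : AnalyticAt ℂ S 0) (h : tay S = mk (lx g χ b))
    (j : ℕ) : (fun q => exp (-S q) ^ j + (exp (-S q))⁻¹ ^ j) ∈ IntA := by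
  have S0 : S 0 = 0 := by rw [← tay_zero S, h]; simp [lx]
  have a : ∀ c : ℤ, AnalyticAt ℂ (fun q => exp (c * S q)) 0 := fun c => by fun_prop
  have c0 : ∀ c : ℤ, coeff 0 (tay fun q => exp (c * S q)) = 1 := fun c => by simp [tay_zero, S0]
  have e : (fun q => exp (-S q) ^ j + (exp (-S q))⁻¹ ^ j) =
      (fun q => exp ((j : ℤ) * S q)) + fun q => exp ((-j : ℤ) * S q) := by
    funext q
    simp [← exp_neg, ← exp_nat_mul, add_comm]
  rw [e, mem_IntA, tay_add (a _) (a _)]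
  refine ⟨(a _).add (a _), fun n => ?_⟩
  have i : ∀ c : ℤ, IsIntegral ℤ (coeff n (tay fun q => exp (c * S q))) := fun c =>
    int_of (O := (integralClosure ℤ ℂ).toSubring) hζ hg c (h ▸ th_exp hS c) (c0 c) n
  obtain ⟨p, p1, p2⟩ := rat_of hr (τ := (j : ℤ) • th (tay S)) (fun i => ⟨j * (_ : ℤ), by
    rw [map_zsmul, h, lx_th, zsmul_eq_mul, mul_left_comm, Rat.cast_mul, Rat.cast_intCast]
    rfl⟩) (by simp [th]) (th_exp hS j) (neg_smul (j : ℤ) (th (tay S)) ▸ th_exp hS (-j)) (c0 _)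
    (c0 _) n
  have := (i j).add (i (-j))
  rw [map_add]
  rw [p1, p2, show (p.1 : ℂ) + p.2 * g + (p.1 - p.2 * g) = algebraMap ℚ ℂ (2 * p.1) by
    simp; ring] at this ⊢
  obtain ⟨k, hk⟩ := IsIntegrallyClosed.isIntegral_iff.1
    ((isIntegral_algebraMap_iff (algebraMap ℚ ℂ).injective).1 this)
  exact Subring.mem_bot.2 ⟨k, by rw [← hk]; simp⟩

/-- a convergent series -/
theorem tay_tsum {a : ℕ → ℂ} {x : ℂ} (hx : x ≠ 0) (h : Summable fun n => a n * x ^ n) :
    AnalyticAt ℂ (fun q => ∑' n, a n * q ^ n) 0 ∧ tay (fun q => ∑' n, a n * q ^ n) = mk a := by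
  have hp : HasFPowerSeriesAt (fun q => ∑' n, a n * q ^ n) (.ofScalars ℂ a) 0 := by
    rw [hasFPowerSeriesAt_iff]
    filter_upwards [ball_mem_nhds 0 (norm_pos_iff.2 hx)] with q hq
    simp only [FormalMultilinearSeries.coeff_ofScalars, smul_eq_mul, zero_add, mul_comm (q ^ _)]
    refine (Summable.of_norm_bounded h.norm fun n => ?_).hasSum
    rw [norm_mul, norm_mul, norm_pow, norm_pow]
    gcongr
    exact (mem_ball_zero_iff.1 hq).le
  refine ⟨hp.analyticAt, ?_⟩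
  ext n
  have := congrArg (FormalMultilinearSeries.coeff · n)
    (hp.eq_formalMultilinearSeries hp.analyticAt.hasFPowerSeriesAt)
  simp only [FormalMultilinearSeries.coeff_ofScalars] at this
  simp only [tay, coeff_mk, this, div_eq_inv_mul]

end Vale.Agent.P004Z.Bo
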