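import Vale.Agent.P004Z.Defs

/-! # P004Z, block G4b: the expansion of the lift at infinity (statement) -/

open Complex UpperHalfPlane CongruenceSubgroup
open scoped NumberTheorySymbols

noncomputable section

namespace Vale.Agent.P004Z.Bo

/-- the coefficients of the logarithm of the product -/
def bx (δ : ℕ) (b : ℕ → ℤ) (j : ℕ) : ℂ :=
  gs δ * ∑ i ∈ j.divisorsAntidiagonal, ((J(i.2 | δ) * b i.1 : ℤ) : ℂ) / i.2

/-- the lift of a weakly holomorphic form with integer coefficients -/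
def EXP : Prop := ∀ (N : ℕ) [NeZero N] (δ : ℕ), Ok N δ →
  ∀ (a : ℤ → ZMod (2 * N) → ℤ) (c : PP N), Harm δ (fun n r => (a n r : ℂ)) 0 c →
    ∃ Φ, Green (Gamma0 N) (Zc δ c) Φ ∧ ∃ (k : ℕ) (b : ℕ → ℤ) (C Y : ℝ), 0 < k ∧
      ∀ z : ℍ, Y < z.im → ∃ S, HasSum (fun j : ℕ => bx δ b j * ee (j * z)) S ∧
        k * (Φ z).re = C + S.re

end Vale.Agent.P004Z.Bo
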