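import Vale.Agent.P004Z.Bo.Mer

/-! # P004Z, block G4b: the unitary function of a Green function -/

open Complex Filter Topology Metric InnerProductSpace
open UpperHalfPlane hiding I
open scoped Real MatrixGroups

noncomputable section

namespace Vale.Agent.P004Z.Bo

/-- `φ` is locally the logarithm of the norm of a function with divisor `n` -/
def Loc (n : ℍ → ℤ) (φ : ℍ → ℝ) : Prop := ∀ w : ℍ, ∃ g : ℂ → ℝ, HarmonicAt g (w : ℂ) ∧
  ∀ᶠ z : ℍ in 𝓝 w, (z ≠ w → n z = 0) ∧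
    (z ≠ w ∨ n w = 0 → φ z = n w * Real.log ‖(z : ℂ) - w‖ + g z)

variable {n : ℍ → ℤ} {φ : ℍ → ℝ}

theorem Loc.ball (h : Loc n φ) (x : ℍ) (r : ℝ) : ∃ Ψ : ℍ → ℂ, ∀ w ∈ ball x r,
    MAt (n w) Ψ w ∧ (n w = 0 → ‖Ψ w‖ = Real.exp (φ w)) := by
  classical
  choose g g1 g2 using h
  obtain ⟨S, hS⟩ := fin_sup (fun w => (g2 w).mono fun _ h => h.1) (isCompact_closedBall x r)
  set P : ℍ → ℂ → ℂ := fun w z => ∏ s ∈ S.erase w, (z - s) ^ n s with hP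
  have ne : ∀ w : ℍ, ∀ s ∈ S.erase w, (w : ℂ) - s ≠ 0 := fun w s hs =>
    sub_ne_zero.2 fun e => Finset.ne_of_mem_erase hs (UpperHalfPlane.ext e).symm
  have P1 : ∀ w, AnalyticAt ℂ (P w) w := fun w => Finset.analyticAt_fun_prod _ fun s hs =>
    (analyticAt_id.sub analyticAt_const).zpow (ne w s hs)
  have P2 : ∀ w, P w w ≠ 0 := fun w => Finset.prod_ne_zero_iff.2 fun s hs =>
    zpow_ne_zero _ (ne w s hs)
  have P3 : ∀ w ∈ Metric.ball x r, ∀ z : ℂ, ∏ s ∈ S, (z - s) ^ n s = (z - w) ^ n w * P w z :=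
    fun w hw z => by
      by_cases h : w ∈ S
      · exact (Finset.mul_prod_erase _ _ h).symm
      · rw [not_not.1 fun e => h (hS w (ball_subset_closedBall hw) e), hP]
        simp [Finset.erase_eq_of_notMem h]
  have g3 : ∀ w, n w = 0 → φ w = g w w := fun w h => by
    simpa [h] using (g2 w).self_of_nhds.2 (.inr h)
  obtain ⟨F, F1, F2⟩ := HarmonicOnNhd.exists_analyticOnNhd_ball_re_eq
    (f := fun z => g (ofComplex z) z - Real.log ‖P (ofComplex z) z‖) (z := x.center r)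
    (R := x.im * Real.sinh r) (fun z hz => by
      rw [← image_coe_ball] at hz
      obtain ⟨w, hw, rfl⟩ := hz
      refine (harmonicAt_congr_nhds (ev_coe.2 ?_)).2
        ((g1 w).sub ((P1 w).harmonicAt_log_norm (P2 w)))
      filter_upwards [g2 w, isOpen_ball.mem_nhds hw,
        ev_coe.1 ((P1 w).continuousAt.eventually_ne (P2 w))] with z h1 h2 h3
      rw [ofComplex_apply, Pi.sub_apply]
      by_cases e : z = w
      · rw [e]
      have h4 := (P3 z h2 z).symm.trans (P3 w hw z)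
      rw [h1.1 e, zpow_zero, one_mul] at h4
      have h5 : ‖(z : ℂ) - w‖ ≠ 0 :=
        norm_ne_zero_iff.2 (sub_ne_zero.2 fun h => e (UpperHalfPlane.ext h))
      rw [← g3 z (h1.1 e), h1.2 (.inl e), h4, norm_mul, norm_zpow,
        Real.log_mul (zpow_ne_zero _ h5) (norm_ne_zero_iff.2 h3), Real.log_zpow]
      ring)
  refine ⟨fun z => (∏ s ∈ S, ((z : ℂ) - s) ^ n s) * exp (F z), fun w hw => ?_⟩
  have hw' := dist_lt_iff_dist_coe_center_lt.1 hw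
  refine ⟨⟨fun z => P w z * exp (F z), (P1 w).mul (F1 _ hw').cexp,
    mul_ne_zero (P2 w) (exp_ne_zero _), .of_forall fun z => by simp only [P3 w hw, mul_assoc]⟩,
    fun e => ?_⟩
  have := F2 hw'
  simp only [ofComplex_apply] at this
  simp only [P3 w hw, e, zpow_zero, one_mul, norm_mul, norm_exp, this, g3 w e]
  rw [Real.exp_sub, Real.exp_log (norm_pos_iff.2 (P2 w)), mul_div_cancel₀ _
    (norm_ne_zero_iff.2 (P2 w))]

theorem Loc.ex (h : Loc n φ) : ∃ Ψ, Mero n Ψ ∧ ∀ w, n w = 0 → ‖Ψ w‖ = Real.exp (φ w) := by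
  obtain ⟨x, hx⟩ : ∃ x, n x = 0 := by
    obtain ⟨g, -, hg⟩ := h UpperHalfPlane.I
    obtain ⟨x, h1, h2⟩ := ((fr_ne _).and_eventually hg).exists
    exact ⟨x, h2.1 h1⟩
  have : ∀ r : ℝ, ∃ Ψ : ℍ → ℂ, (∀ w ∈ Metric.ball x r, MAt (n w) Ψ w ∧
      (n w = 0 → ‖Ψ w‖ = Real.exp (φ w))) ∧ (0 < r → Ψ x = Real.exp (φ x)) := fun r => by
    obtain ⟨Ψ, hΨ⟩ := h.ball x r
    by_cases hr : 0 < r; swap
    · exact ⟨Ψ, hΨ, fun h => (hr h).elim⟩
    have h1 := (hΨ x (mem_ball_self hr)).2 hx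
    have h2 : Ψ x ≠ 0 := norm_pos_iff.1 (h1 ▸ Real.exp_pos _)
    have h3 : ‖Real.exp (φ x) / Ψ x‖ = 1 := by
      rw [norm_div, h1, norm_real, Real.norm_of_nonneg (Real.exp_pos _).le,
        div_self (Real.exp_pos _).ne']
    exact ⟨fun z => Real.exp (φ x) / Ψ x * Ψ z, fun w hw => ⟨(hΨ w hw).1.cmul
      (norm_pos_iff.1 (h3 ▸ one_pos)), fun e => by rw [norm_mul, h3, one_mul, (hΨ w hw).2 e]⟩,
      fun _ => div_mul_cancel₀ _ h2⟩
  choose Ψ h1 h2 using this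
  have h3 : ∀ r s, 0 < r → r ≤ s → ∀ z ∈ Metric.ball x r, Ψ r z = Ψ s z := fun r s hr hs z hz => by
    have sb := ball_subset_ball (x := x) hs
    obtain ⟨c, -, hc⟩ := rig isOpen_ball (pre_ball x r) (fun w hw => (h1 r w hw).1)
      (fun w hw => (h1 s w (sb hw)).1) fun w hw e =>
        ((h1 r w hw).2 e).trans ((h1 s w (sb hw)).2 e).symm
    have := hc x (mem_ball_self hr)
    rw [h2 r hr, h2 s (hr.trans_le hs), eq_comm, mul_eq_right₀ (by simp)] at this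
    rw [hc z hz, this, one_mul]
  have mb : ∀ z : ℍ, z ∈ Metric.ball x (dist z x + 1) := fun z => by simp
  refine ⟨fun z => Ψ (dist z x + 1) z, fun w => MAt.congr (h1 (dist w x + 2) w (by simp)).1 ?_,
    fun w => (h1 _ w (mb w)).2⟩
  filter_upwards [ball_mem_nhds w one_pos] with z hz
  exact h3 _ _ (by positivity) (by linarith [dist_triangle z w x, mem_ball.1 hz]) z (mb z)

theorem loc_of {Γ : Subgroup SL(2, ℤ)} {Φ : ℍ → ℂ} (h : Green Γ (fun z => n z) Φ) :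
    Loc n fun z => -(Φ z).re / 2 := fun w => by
  obtain ⟨a, b, ha, hb, h⟩ := h.loc w
  refine ⟨fun z => (-(a z + b z) / 2).re, AnalyticAt.harmonicAt_re (by fun_prop),
    h.mono fun z hz => ⟨fun e => by exact_mod_cast hz.1 e, fun e => ?_⟩⟩
  beta_reduce
  rw [hz.2 (by exact_mod_cast e), normSq_eq_norm_sq, Real.log_pow]
  simp [-natCast_log]
  ring

/-- **UNI**, first form -/
theorem uni0 (Γ : Subgroup SL(2, ℤ)) (n : ℍ → ℤ) (Φ : ℍ → ℂ) (h : Green Γ (fun z => n z) Φ) :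
    ∃ (Ψ : ℍ → ℂ) (χ : SL(2, ℤ) → ℂ), Mero n Ψ ∧ Cus Ψ ∧
      (∀ z, n z = 0 → ‖Ψ z‖ = Real.exp (-(Φ z).re / 2)) ∧
      ∀ γ ∈ Γ, ‖χ γ‖ = 1 ∧ ∀ z, Ψ (γ • z) = χ γ * Ψ z := by
  obtain ⟨Ψ, h1, h2⟩ := (loc_of h).ex
  have dv : ∀ γ ∈ Γ, ∀ z, n (γ • z) = n z := fun γ hγ z => by exact_mod_cast h.dv γ hγ z
  choose! χ hχ using fun γ (hγ : γ ∈ Γ) => rig (n := n) (Ψ := fun z => Ψ (γ • z)) (Ψ' := Ψ)
    isOpen_univ isPreconnected_univ (fun w _ => MAt.smul (dv γ hγ w ▸ h1 _)) (fun w _ => h1 w)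
    fun z _ e => by
      rw [h2 _ ((dv γ hγ z).trans e), h2 _ e, h.inv γ hγ z (by exact_mod_cast e)]
  refine ⟨Ψ, χ, h1, fun γ => ?_, h2, fun γ hγ => ⟨(hχ γ hγ).1, fun z => (hχ γ hγ).2 z trivial⟩⟩
  obtain ⟨C, y, hC⟩ := h.bdd γ
  refine ⟨Real.exp (C / 2), y, Real.exp_pos _, fun z hz => ?_⟩
  have := abs_le.1 ((abs_re_le_norm _).trans (hC z hz).2)
  rw [h2 _ (by exact_mod_cast (hC z hz).1), ← Real.exp_neg, Real.exp_le_exp, Real.exp_le_exp]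
  constructor <;> linarith

/-- **UNI** (the text of the row) -/
theorem uni1 (Γ : Subgroup SL(2, ℤ)) (n : ℍ → ℤ) (Φ : ℍ → ℂ) (h : Green Γ (fun z => n z) Φ) :
    ∃ (Ψ : ℍ → ℂ) (χ : SL(2, ℤ) → ℂ), Mero n Ψ ∧ Cus Ψ ∧
      (∀ z, n z = 0 → Real.log (normSq (Ψ z)) = -(Φ z).re) ∧
      ∀ γ ∈ Γ, ‖χ γ‖ = 1 ∧ ∀ z, Ψ (γ • z) = χ γ * Ψ z := by
  obtain ⟨Ψ, χ, h1, h2, h3, h4⟩ := uni0 Γ n Φ h
  refine ⟨Ψ, χ, h1, h2, fun z e => ?_, h4⟩
  rw [normSq_eq_norm_sq, Real.log_pow, h3 z e, Real.log_exp]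
  ring

end Vale.Agent.P004Z.Bo
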