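import Vale.Agent.P004Z.Bo.An
import Vale.Agent.P004Z.Bo.Int
import Vale.Agent.P004Z.Bo.Uni
import Vale.Agent.P004Z.Bo.St
import Vale.Agent.P004Z.Th.Gs
import Vale.Agent.P004Z.Ar.Abl0

/-! # P004Z, block G4b: Borcherds products -/

open Complex Filter Topology Metric CongruenceSubgroup
open UpperHalfPlane hiding I
open scoped Real MatrixGroups NumberTheorySymbols

noncomputable section

namespace Vale.Agent.P004Z.Bo

theorem ee_nat (j : ℕ) (z : ℂ) : ee (j * z) = ee z ^ j := by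
  rw [ee, mul_left_comm, exp_nat_mul]
  rfl

theorem dl_eq (N : ℕ) :
    ModularGroup.S * ModularGroup.T ^ N * ModularGroup.S⁻¹ = (dl N)⁻¹ := by
  rw [mul_inv_eq_iff_eq_mul, eq_inv_mul_iff_mul_eq, ← zpow_natCast]
  refine Subtype.ext ?_
  change !![1, 0; (N : ℤ), 1] * (!![0, -1; 1, 0] * (ModularGroup.T ^ (N : ℤ)).1) = !![0, -1; 1, 0]
  rw [ModularGroup.coe_T_zpow]
  simp

/-- **UNI** -/
theorem uni : UNI := uni1

/-- **BOR** -/
theorem bor (hE : EXP) : BOR := fun N _ δ ok c ⟨a, ha⟩ => by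
  obtain ⟨Φ, hΦ, k, b, C, Y, k0, hY⟩ := hE N δ ok a c ha
  have hn : ∀ z, ∃ m : ℤ, (m : ℂ) = Zc δ c z := fun z => Subring.mem_bot.1 (sum_mem fun i _ => by
    refine mul_mem ?_ (intCast_mem _ _)
    rcases i.1.eq_zero_or_pos with h | h
    · exact (show c i = 0 from (congrArg (fun m => c (m, i.2)) h).trans (ha.zero _)) ▸ zero_mem _
    · exact (show c i = _ from ha.pp _ _ h) ▸ intCast_mem _ _)
  choose n hn using hn
  obtain e : Zc δ c = fun z => (n z : ℂ) := funext fun z => (hn z).symm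
  rw [e] at hΦ ⊢
  obtain ⟨Ψ, χ, h1, h2, h3, h4⟩ := uni0 _ n Φ hΦ
  obtain ⟨_, y, hy⟩ := hΦ.bdd 1
  simp only [one_smul, Int.cast_eq_zero] at hy
  set S : ℂ → ℂ := fun q => ∑' j, bx δ b j * q ^ j with hS
  simp only [ee_nat] at hY
  obtain ⟨S1, S2⟩ : AnalyticAt ℂ S 0 ∧ tay S = .mk (bx δ b) := by
    obtain ⟨s, hs, -⟩ := hY ⟨(|Y| + 1 : ℝ) * I, by simp; positivity⟩ (by
      simp [UpperHalfPlane.im]; linarith [le_abs_self Y])
    exact tay_tsum (ee_ne _) hs.summable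
  obtain ⟨r, r0, hr⟩ := Metric.eventually_nhds_iff_ball.1 S1.eventually_analyticAt
  set t := max (max Y y) (-Real.log r / (2 * π)) with ht
  have big : ∀ z : ℍ, t < z.im ↔ ‖ee z‖ < Real.exp (-2 * π * t) := fun z => by
    rw [norm_ee, Real.exp_lt_exp, mul_lt_mul_left_of_neg (by linarith [Real.pi_pos])]
    rfl
  have n0 : ∀ z : ℍ, t < z.im → n z = 0 := fun z hz =>
    (hy z ((le_max_of_le_left (le_max_right _ _)).trans_lt hz)).1
  obtain ⟨u, u1, u2⟩ := rig (U := {z : ℍ | t < z.im}) (n := fun _ => 0)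
    (Ψ := fun z => Ψ z ^ (2 * k)) (Ψ' := fun z => Real.exp (-C) * exp (-S (ee z)))
    (isOpen_lt continuous_const UpperHalfPlane.continuous_im) (pre_im t)
    (fun w hw => by simpa [n0 w hw] using MAt.pow (h1 w) (2 * k))
    (fun w hw => ⟨fun z => Real.exp (-C) * exp (-S (ee z)), analyticAt_const.mul
      ((hr _ (mem_ball_zero_iff.2 (((big w).1 hw).trans_le (by
        rw [← Real.exp_log r0, Real.exp_le_exp]
        have := (div_le_iff₀ (by positivity)).1 (le_max_right _ _ : _ ≤ t)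
        linarith)))).comp (an_ee w)).neg.cexp, by simp, by simp⟩)
    fun z hz _ => by
      obtain ⟨s, hs, h⟩ := hY z ((le_max_of_le_left (le_max_left _ _)).trans_lt hz)
      rw [norm_pow, h3 z (n0 z hz), norm_mul, norm_exp, norm_real, Real.norm_of_nonneg
        (Real.exp_pos _).le, ← Real.exp_nat_mul, ← Real.exp_add, show S (ee z) = s from hs.tsum_eq,
        neg_re]
      congr 1
      push_cast
      linarith
  have u0 : u * Real.exp (-C) ≠ 0 := mul_ne_zero (norm_pos_iff.1 (u1 ▸ one_pos)) (by simp)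
  have u3 : ∀ z : ℍ, ‖ee z‖ < Real.exp (-2 * π * t) →
      (u * Real.exp (-C))⁻¹ * Ψ z ^ (2 * k) = exp (-S (ee z)) := fun z hz => by
    rw [u2 z ((big z).2 hz), ← mul_assoc u, inv_mul_cancel_left₀ u0]
  have law : ∀ γ ∈ Gamma0 N, ∀ z, (u * Real.exp (-C))⁻¹ * Ψ (γ • z) ^ (2 * k) =
      χ γ ^ (2 * k) * ((u * Real.exp (-C))⁻¹ * Ψ z ^ (2 * k)) := fun γ hγ z => by
    rw [(h4 γ hγ).2, mul_pow, mul_left_comm]
  have par : ∀ (g : SL(2, ℤ)) (m : ℕ), 0 < m → g * ModularGroup.T ^ m * g⁻¹ ∈ Gamma0 N → ∀ z,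
      Ψ ((g * ModularGroup.T ^ m * g⁻¹) • z) = Ψ z := fun g m hm h z => by
    rw [(h4 _ h).2, Ar.parab h1 h2 g hm (h4 _ h).1 (h4 _ h).2, one_mul]
  have N0 := NeZero.pos N
  have i1 : ∀ x : ℕ, IsIntegral ℤ (ee (x / δ)) := fun x => by
    refine IsIntegral.of_pow ok.sq.ne_zero.bot_lt ?_
    rw [← ee_nat, mul_div_cancel₀ _ (Nat.cast_ne_zero.2 ok.sq.ne_zero), ← Int.cast_natCast, ee_int]
    exact isIntegral_one
  have i2 : ∀ m : ℕ, ∑ x ∈ Finset.range δ, (J(x | δ) : ℂ) * ee (x / δ) ^ m = J(m | δ) * gs δ :=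
    fun m => by
      rw [← Gq.gk_eq ok.odd ok.sq, Gq.gk]
      refine Finset.sum_congr rfl fun x _ => ?_
      rw [← ee_nat]
      push_cast
      rw [mul_div_assoc]
  obtain ⟨l, l0, hl⟩ := fin_ord (ψ := fun q => exp (-S q)) N0
    (fun w => (MAt.pow (h1 w) (2 * k)).cmul (inv_ne_zero u0))
    (fun z => by rw [← par 1 1 one_pos (by
      rw [one_mul, inv_one, mul_one, pow_one, Gamma0_mem]; exact Int.cast_zero) z]; simp)
    (fun z => by
      rw [← par ModularGroup.S N N0 (dl_eq N ▸ inv_mem (Gamma0_mem.2 (by simp [dl]))) (dl N • z), dl_eq,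
        inv_smul_smul])
    (Real.exp_pos _) u3 S1.neg.cexp (exp_ne_zero _) fun j =>
      tr_int (s := Finset.range δ) (e := fun x => J(x | δ)) (ζ := fun x => ee (x / δ))
        (χ := fun m => J(m | δ)) (g := gs δ) (r := eps δ * δ) i1 i2
        (by exact_mod_cast Gq.gs_sq ok.odd ok.sq) S1 S2 j
  refine ⟨2 * k * l, fun z => (2 * k * l : ℕ) * n z, fun z => Ψ z ^ (2 * k * l), by positivity,
    fun z => by push_cast; rfl, fun w => MAt.pow (h1 w) _, h2.pow _, fun γ hγ z => ?_⟩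
  simp only [(h4 γ hγ).2, mul_pow]
  rw [pow_mul _ _ l, hl γ _ (pow_ne_zero _ (norm_pos_iff.1 ((h4 γ hγ).1 ▸ one_pos))) (law γ hγ),
    one_mul]

end Vale.Agent.P004Z.Bo
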