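import Vale.Agent.P004Z.Defs

/-! # P004Z, block G4b: meromorphic functions with a given divisor -/

open Complex Filter Topology Metric
open UpperHalfPlane hiding I
open scoped Real MatrixGroups

noncomputable section

namespace Vale.Agent.P004Z.Bo

/-- `Ψ` has order `k` at `w` -/
def MAt (k : ℤ) (Ψ : ℍ → ℂ) (w : ℍ) : Prop := ∃ u : ℂ → ℂ, AnalyticAt ℂ u w ∧ u w ≠ 0 ∧
  ∀ᶠ z : ℍ in 𝓝 w, Ψ z = ((z : ℂ) - w) ^ k * u z

theorem ev_coe {p : ℂ → Prop} {w : ℍ} : (∀ᶠ z in 𝓝 (w : ℂ), p z) ↔ ∀ᶠ z : ℍ in 𝓝 w, p z := by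
  rw [← isOpenEmbedding_coe.map_nhds_eq, eventually_map]

theorem ev_of {p : ℍ → Prop} {w : ℍ} (h : ∀ᶠ z in 𝓝 w, p z) :
    ∀ᶠ z in 𝓝 (w : ℂ), p (ofComplex z) :=
  ev_coe.2 (by simpa only [ofComplex_apply] using h)

theorem fr_ne (w : ℍ) : ∃ᶠ z in 𝓝 w, z ≠ w := fun h => by
  have : ∀ᶠ z : ℂ in 𝓝 (w : ℂ), z = w :=
    ev_coe.2 (h.mono fun z hz => congrArg _ (not_not.1 hz : z = w))
  exact (frequently_nhdsWithin_iff.1 (Eventually.frequently (f := 𝓝[≠] (w : ℂ))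
    (this.filter_mono nhdsWithin_le_nhds))) (Eventually.of_forall fun z hz => hz.2 hz.1)

variable {k l : ℤ} {Ψ Ψ' : ℍ → ℂ} {w : ℍ} {n : ℍ → ℤ}

theorem MAt.val (h : MAt k Ψ w) : Ψ w ≠ 0 ↔ k = 0 := by
  obtain ⟨u, -, h1, h2⟩ := h
  rw [h2.self_of_nhds, sub_self]
  by_cases h : k = 0 <;> simp [h, h1, zero_zpow]

theorem MAt.ev_ne (h : MAt k Ψ w) : ∀ᶠ z in 𝓝 w, z ≠ w → Ψ z ≠ 0 := by
  obtain ⟨u, h0, h1, h2⟩ := h
  filter_upwards [h2, ev_coe.1 (h0.continuousAt.eventually_ne h1)] with z h3 h4 h5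
  exact h3 ▸ mul_ne_zero (zpow_ne_zero _ (sub_ne_zero.2 fun h => h5 (UpperHalfPlane.ext h))) h4

theorem MAt.congr (h : MAt k Ψ w) (e : Ψ' =ᶠ[𝓝 w] Ψ) : MAt k Ψ' w := by
  obtain ⟨u, h0, h1, h2⟩ := h
  exact ⟨u, h0, h1, (e.and h2).mono fun z hz => hz.1.trans hz.2⟩

theorem MAt.cmul (h : MAt k Ψ w) {c : ℂ} (hc : c ≠ 0) : MAt k (fun z => c * Ψ z) w := by
  obtain ⟨u, h0, h1, h2⟩ := h
  exact ⟨fun z => c * u z, analyticAt_const.mul h0, mul_ne_zero hc h1,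
    h2.mono fun z hz => by simp only [hz, mul_left_comm]⟩

theorem MAt.inv (h : MAt k Ψ w) : MAt (-k) (fun z => (Ψ z)⁻¹) w := by
  obtain ⟨u, h0, h1, h2⟩ := h
  exact ⟨fun z => (u z)⁻¹, h0.inv h1, inv_ne_zero h1, h2.mono fun z hz => by
    simp only [hz, mul_inv, zpow_neg]⟩

theorem MAt.pow (h : MAt k Ψ w) (m : ℕ) : MAt (m * k) (fun z => Ψ z ^ m) w := by
  obtain ⟨u, h0, h1, h2⟩ := h
  exact ⟨fun z => u z ^ m, h0.pow m, pow_ne_zero _ h1, h2.mono fun z hz => by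
    simp only [hz, mul_pow, mul_comm (m : ℤ), zpow_mul, zpow_natCast]⟩

theorem det_pos (γ : SL(2, ℤ)) : 0 < (γ : GL (Fin 2) ℝ).val.det :=
  lt_of_lt_of_eq one_pos (Matrix.SpecialLinearGroup.map (algebraMap ℤ ℝ) γ).2.symm

theorem an_smul (γ : SL(2, ℤ)) (w : ℍ) :
    AnalyticAt ℂ (fun z => ((γ • ofComplex z : ℍ) : ℂ)) w :=
  analyticAt_smul (det_pos γ) w

theorem an_dslope {f : ℂ → ℂ} {x : ℂ} (h : AnalyticAt ℂ f x) : AnalyticAt ℂ (dslope f x) x :=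
  let ⟨_, hp⟩ := h
  hp.has_fpower_series_dslope_fslope.analyticAt

theorem MAt.smul {γ : SL(2, ℤ)} (h : MAt k Ψ (γ • w)) : MAt k (fun z => Ψ (γ • z)) w := by
  obtain ⟨u, h0, h1, h2⟩ := h
  have a := an_smul γ w
  have d : dslope (fun z => ((γ • ofComplex z : ℍ) : ℂ)) w w ≠ 0 := by
    rw [dslope_same]
    exact deriv_smul_ne_zero (det_pos γ) w
  refine ⟨fun z => dslope (fun z => ((γ • ofComplex z : ℍ) : ℂ)) w z ^ k * u (γ • ofComplex z : ℍ),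
    ((an_dslope a).zpow d).mul (AnalyticAt.comp (g := u) (by simpa using h0) a),
    mul_ne_zero (zpow_ne_zero _ d) (by simpa using h1), ?_⟩
  filter_upwards [(continuous_const_smul (γ : GL (Fin 2) ℝ)).continuousAt.eventually h2] with z hz
  have := sub_smul_dslope (fun z => ((γ • ofComplex z : ℍ) : ℂ)) w z
  simp only [ofComplex_apply, smul_eq_mul] at this ⊢
  rw [← mul_assoc, ← mul_zpow, this]
  exact hz

theorem MAt.mero (h : MAt k Ψ w) : MeromorphicAt (Ψ ∘ ofComplex) w := by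
  obtain ⟨u, h0, -, h2⟩ := h
  refine MeromorphicAt.congr (f := fun z => (z - w) ^ k * u z) (by fun_prop) ?_
  exact (ev_coe.2 (h2.mono fun z hz => by simp [hz])).filter_mono nhdsWithin_le_nhds

/-- clearing a pole -/
theorem MAt.clear (h : MAt k Ψ w) {g : ℂ → ℂ} (hg : AnalyticAt ℂ g w) {e : ℕ}
    (he : k = 0 ∨ g w = 0 ∧ k.natAbs < e) : AnalyticAt ℂ (g ^ e * Ψ ∘ ofComplex) w := by
  obtain ⟨u, h0, -, h2⟩ := h
  have h3 : Ψ ∘ ofComplex =ᶠ[𝓝 (w : ℂ)] fun z => (z - w) ^ k * u z :=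
    ev_coe.2 (h2.mono fun z hz => by simp [hz])
  rcases he with rfl | ⟨h4, h5⟩
  · exact (hg.pow e).mul (h0.congr (by simpa using h3.symm))
  obtain ⟨m, hm⟩ : ∃ m : ℕ, e + k = (m + 1 : ℕ) := ⟨(e + k - 1).toNat, by omega⟩
  refine AnalyticAt.congr (f := fun z => (z - w) ^ (m + 1) * (dslope g w z ^ e * u z))
    (by have := an_dslope hg; fun_prop) (h3.mono fun z hz => ?_)
  have := sub_smul_dslope g w z
  rw [h4, sub_zero, smul_eq_mul] at this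
  simp only [Pi.mul_apply, Pi.pow_apply, hz, ← this, mul_pow]
  by_cases h : z - w = 0
  · simp [h, show e ≠ 0 by omega]
  · rw [← zpow_natCast _ (m + 1), ← hm, zpow_add₀ h, zpow_natCast]
    ring

theorem MAt.an (h : MAt 0 Ψ w) : AnalyticAt ℂ (Ψ ∘ ofComplex) w := by
  simpa using h.clear (g := 1) analyticAt_const (e := 0) (.inl rfl)

theorem iso (h : Mero n Ψ) (w : ℍ) : ∀ᶠ z in 𝓝 w, z ≠ w → n z = 0 :=
  (MAt.ev_ne (h w)).mono fun z hz e => (MAt.val (h z)).1 (hz e)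

theorem fin_sup {A : Type} [Zero A] {n : ℍ → A} (h : ∀ w, ∀ᶠ z in 𝓝 w, z ≠ w → n z = 0)
    {K : Set ℍ} (hK : IsCompact K) : ∃ S : Finset ℍ, ∀ z ∈ K, n z ≠ 0 → z ∈ S := by
  obtain ⟨S, -, hS⟩ := hK.elim_nhds_subcover _ fun w _ => h w
  refine ⟨S, fun z hz h0 => ?_⟩
  obtain ⟨w, hw, h1⟩ := Set.mem_iUnion₂.1 (hS hz)
  exact (not_not.1 fun e => h0 (h1 e) : z = w) ▸ hw

theorem MAt.rig (h : MAt k Ψ w) (h' : MAt k Ψ' w) (e : ∀ᶠ z in 𝓝 w, z ≠ w → ‖Ψ z‖ = ‖Ψ' z‖) :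
    ∃ c : ℂ, ‖c‖ = 1 ∧ ∀ᶠ z in 𝓝 w, Ψ z = c * Ψ' z := by
  obtain ⟨u, h0, h1, h2⟩ := h
  obtain ⟨v, k0, k1, k2⟩ := h'
  have a := h0.div k0 k1
  have b := ev_coe.1 (k0.continuousAt.eventually_ne k1)
  have c : ∀ᶠ z : ℍ in 𝓝 w, z ≠ w → ‖(u / v) z‖ = 1 := by
    filter_upwards [h2, k2, e, b] with z h3 h4 h5 h6 h7
    have := h5 h7
    rw [h3, h4, norm_mul, norm_mul, mul_right_inj' (norm_ne_zero_iff.2
      (zpow_ne_zero _ (sub_ne_zero.2 fun h => h7 (UpperHalfPlane.ext h))))] at this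
    rw [Pi.div_apply, norm_div, this, div_self (norm_ne_zero_iff.2 h6)]
  have d : ‖(u / v) w‖ = 1 :=
    tendsto_nhds_unique_of_frequently_eq (f := fun z : ℍ => ‖(u / v) z‖)
      (a.continuousAt.comp continuous_coe.continuousAt).norm tendsto_const_nhds
      (((fr_ne w).and_eventually c).mono fun z hz => hz.2 hz.1)
  refine ⟨_, d, ?_⟩
  have := eventually_eq_of_isLocalMax_norm (a.eventually_analyticAt.mono fun _ h =>
    h.differentiableAt) (ev_coe.2 (c.mono fun z hz => by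
      by_cases h : z = w
      · rw [h]
      · exact ((hz h).trans d.symm).le))
  filter_upwards [ev_coe.1 this, h2, k2, b] with z h3 h4 h5 h6
  rw [h4, h5, ← h3, Pi.div_apply]
  field_simp

/-- rigidity -/
theorem rig {U : Set ℍ} (hU : IsOpen U) (hc : IsPreconnected U) (h : ∀ w ∈ U, MAt (n w) Ψ w)
    (h' : ∀ w ∈ U, MAt (n w) Ψ' w) (e : ∀ z ∈ U, n z = 0 → ‖Ψ z‖ = ‖Ψ' z‖) :
    ∃ c : ℂ, ‖c‖ = 1 ∧ ∀ z ∈ U, Ψ z = c * Ψ' z := by
  rcases U.eq_empty_or_nonempty with rfl | ⟨x, hx⟩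
  · exact ⟨1, norm_one, fun _ h => h.elim⟩
  choose! c c1 c2 using fun w hw => (h w hw).rig (h' w hw) (by
    filter_upwards [(h' w hw).ev_ne, hU.mem_nhds hw] with z h1 h2 h3
    exact e z h2 ((h' z h2).val.1 (h1 h3)))
  refine ⟨c x, c1 x hx, fun z hz => ?_⟩
  rw [(c2 z hz).self_of_nhds, hc.induction₂' (fun a b => c a = c b) (fun a ha => ?_)
    (fun _ _ _ _ _ _ => Eq.trans) hx hz]
  filter_upwards [self_mem_nhdsWithin, nhdsWithin_le_nhds (c2 a ha).eventually_nhds] with b hb h1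
  obtain ⟨y, h2, h3, h4, h5⟩ := ((fr_ne b).and_eventually
    (h1.and ((c2 b hb).and (h' b hb).ev_ne))).exists
  have := mul_right_cancel₀ (h5 h2) (h3.symm.trans h4)
  exact ⟨this, this.symm⟩

theorem pre_ball (z : ℍ) (r : ℝ) : IsPreconnected (ball z r) := by
  rw [← isEmbedding_coe.isInducing.isPreconnected_image, image_coe_ball]
  exact (convex_ball _ _).isPreconnected

theorem pre_im (y : ℝ) : IsPreconnected {z : ℍ | y < z.im} := by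
  rw [← isEmbedding_coe.isInducing.isPreconnected_image]
  convert ((convex_halfSpace_im_gt y).inter (convex_halfSpace_im_gt 0)).isPreconnected using 1
  ext z
  exact ⟨fun ⟨w, h, e⟩ => e ▸ ⟨h, w.im_pos⟩, fun h => ⟨⟨z, h.2⟩, h.1, rfl⟩⟩

end Vale.Agent.P004Z.Bo
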