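import Vale.Agent.P004Z.Bo.An2

/-! # P004Z, block G4b: the multiplier has finite order -/

open Complex Filter Topology Metric
open UpperHalfPlane hiding I
open scoped Real MatrixGroups

noncomputable section

namespace Vale.Agent.P004Z.Bo

/-- `(1 0; N 1)` -/
def dl (N : ℕ) : SL(2, ℤ) := ⟨!![1, 0; N, 1], by simp [Matrix.det_fin_two]⟩

theorem mo_of {N k : ℕ} (hN : 0 < N) {g : ℂ → ℂ}
    (h : ∀ z : ℍ, g (ee (dl N • z : ℍ)) = (N * z + 1) ^ k * g (ee z)) : Mo N k g := fun z hz _ => by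
  have := h ⟨z, lt_of_lt_of_le (by unfold ep; positivity) hz⟩
  rw [coe_specialLinearGroup_apply] at this
  simpa [dl] using this

variable {n : ℍ → ℤ} {Ψ : ℍ → ℂ} {ψ : ℂ → ℂ}

/-- an algebraic relation near the cusp -/
theorem rel {N : ℕ} (hN : 0 < N) (hM : Mero n Ψ) (hT : ∀ z, Ψ (ModularGroup.T • z) = Ψ z)
    (hd : ∀ z, Ψ (dl N • z) = Ψ z) {ρ : ℝ} (hρ : 0 < ρ) (hψ : ∀ z : ℍ, ‖ee z‖ < ρ → Ψ z = ψ (ee z))
    (aψ : AnalyticAt ℂ ψ 0) (h0 : ψ 0 ≠ 0) (hi : ∀ j : ℕ, ψ ^ j + ψ⁻¹ ^ j ∈ IntA) {a b : ℂ → ℂ}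
    (a1 : a ∈ IntA) (b1 : b ∈ IntA) (a2 : DifferentiableOn ℂ a (ball 0 1))
    (b2 : DifferentiableOn ℂ b (ball 0 1)) (a3 : a 0 = 1) (b3 : b 0 = 0)
    (b4 : ∀ z : ℍ, b (ee z) ≠ 0)
    (ab : ∀ z : ℍ, a (ee (dl N • z : ℍ)) = (N * z + 1) ^ 12 * a (ee z) ∧
      b (ee (dl N • z : ℍ)) = (N * z + 1) ^ 12 * b (ee z)) :
    ∃ (D : ℕ) (p : Fin D × Fin D → ℤ), p ≠ 0 ∧
      ∀ᶠ q in 𝓝 (0 : ℂ), ∑ i, p i * Mn i a b ψ ψ⁻¹ 1 q = 0 := by
  obtain ⟨r, r0, hr⟩ := nhds_basis_closedBall.eventually_iff.1 (aψ.eventually_analyticAt.and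
    ((aψ.continuousAt.eventually_ne h0).and ((eventually_mem_set.2 (ball_mem_nhds 0 hρ)).and
      (eventually_mem_set.2 (ball_mem_nhds 0 one_pos)))))
  have r1 : r ≤ 1 := by
    have := (hr (x := r) (by simp [abs_of_pos r0])).2.2.2
    rw [mem_ball_zero_iff, norm_real] at this
    exact (le_abs_self r).trans this.le
  have e0 : 0 < ep N / 2 := by unfold ep; positivity
  obtain ⟨S, hS⟩ := fin_sup (iso hM) (isEmbedding_coe.isInducing.isCompact_preimage'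
    ((isCompact_Icc (a := -(1 / 2 : ℝ)) (b := 1 / 2)).reProdIm
      (isCompact_Icc (a := ep N / 2) (b := -Real.log r / (2 * π))))
    fun z hz => ⟨⟨z, e0.trans_le hz.2.1⟩, rfl⟩)
  set g : ℂ → ℂ := fun q => ∏ w ∈ S, (a q - a (ee w) / b (ee w) * b q) with hg
  set e := (S.sup fun w => (n w).natAbs) + 1 with he
  have dg : DifferentiableOn ℂ g (ball 0 1) :=
    DifferentiableOn.fun_finsetProd fun w _ => a2.sub (b2.const_mul _)
  have cl : ∀ w : ℍ, |w.re| ≤ 1 / 2 → ep N / 2 < w.im →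
      n w = 0 ∨ g (ee w) = 0 ∧ (n w).natAbs < e := fun w h1 h2 => by
    refine or_iff_not_imp_left.2 fun h => ?_
    have : w ∈ S := hS w ⟨abs_le.1 h1, h2.le, not_lt.1 fun h3 => h ?_⟩ h
    · exact ⟨Finset.prod_eq_zero this (by rw [div_mul_cancel₀ _ (b4 w), sub_self]),
        Nat.lt_succ_of_le (Finset.le_sup (f := fun w => (n w).natAbs) this)⟩
    have h4 := hr (x := ee w) (by
      rw [mem_closedBall_zero_iff, norm_ee, ← Real.exp_log r0, Real.exp_le_exp]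
      rw [div_lt_iff₀ (by positivity)] at h3
      linarith)
    exact (MAt.val (hM w)).1 (hψ w (mem_ball_zero_iff.1 h4.2.2.1) ▸ h4.2.1)
  obtain ⟨P, P1, P2, P3⟩ := ext hM hT hρ hψ aψ dg e0 cl
  obtain ⟨Q, Q1, Q2, Q3⟩ := ext (n := fun w => -n w) (Ψ := fun z => (Ψ z)⁻¹) (ψ := ψ⁻¹)
    (fun w => MAt.inv (hM w)) (fun z => by rw [hT]) hρ (fun z h => by rw [hψ z h]; rfl)
    (aψ.inv h0) dg e0 (by simpa using cl)
  have s1 : closedBall (0 : ℂ) (rd N) ⊆ ball 0 (Real.exp (-2 * π * (ep N / 2))) :=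
    closedBall_subset_ball (Real.exp_lt_exp.2 (by nlinarith [mul_pos Real.pi_pos e0]))
  have s2 := s1.trans (ball_subset_ball (ε₂ := 1)
    (Real.exp_le_one_iff.2 (by nlinarith [mul_pos Real.pi_pos e0])))
  have s3 : closedBall (0 : ℂ) r ⊆ ball 0 1 := fun q hq => (hr hq).2.2.2
  have d1 : DifferentiableOn ℂ ψ (closedBall 0 r) := fun q hq =>
    (hr hq).1.differentiableAt.differentiableWithinAt
  have d2 : DifferentiableOn ℂ ψ⁻¹ (closedBall 0 r) := d1.inv fun q hq => (hr hq).2.1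
  obtain ⟨C, hC⟩ := bound5 (isCompact_closedBall 0 r) (a2.mono s3).continuousOn
    (b2.mono s3).continuousOn d1.continuousOn d2.continuousOn (continuousOn_const (c := 1))
  obtain ⟨C', hC'⟩ := bound5 (isCompact_closedBall 0 (rd N)) (a2.mono s2).continuousOn
    (b2.mono s2).continuousOn (P1.mono s1).continuousOn (Q1.mono s1).continuousOn
    ((dg.pow e).mono s2).continuousOn
  have gw : ∀ z : ℍ, g (ee (dl N • z : ℍ)) ^ e = (N * z + 1) ^ (12 * S.card * e) * g (ee z) ^ e :=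
    fun z => by
      rw [pow_mul, pow_mul, ← mul_pow, ← Finset.prod_const, hg, ← Finset.prod_mul_distrib]
      refine congrArg (· ^ e) (Finset.prod_congr rfl fun w _ => ?_)
      rw [(ab z).1, (ab z).2]
      ring
  refine key hN r0 r1 (C := 2 * max 1 (max C C') ^ 2)
    (by nlinarith [le_max_left 1 (max C C')]) (12 + 12 * S.card * e)
    (fun D i => Mn i a b ψ ψ⁻¹ 1) (fun D i => Mn i a b P Q (g ^ e)) (fun D => (g ^ e) ^ D)
    (fun D i => ⟨mul_mem (mul_mem (pow_mem a1 _) (pow_mem b1 _))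
      (mul_mem (hi _) (pow_mem (one_mem _) _)), (Mn_diff i (a2.mono s3) (b2.mono s3) d1 d2
        (differentiableOn_const 1)).diffContOnCl_ball subset_rfl, fun q hq =>
      hC _ (le_max_of_le_right (le_max_left _ _)) D i q (sphere_subset_closedBall hq)⟩)
    (fun D i => ⟨mo_of hN fun z => ?_, (Mn_diff i (a2.mono s2) (b2.mono s2) (P1.mono s1)
      (Q1.mono s1) ((dg.pow e).mono s2)).diffContOnCl_ball subset_rfl, fun q hq =>
      hC' _ (le_max_of_le_right (le_max_right _ _)) D i q (sphere_subset_closedBall hq), ?_⟩)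
    fun D => ⟨((dg.analyticAt (ball_mem_nhds 0 one_pos)).pow e).pow D, by simp [hg, a3, b3]⟩
  · change Mn i (a _) (b _) (P _) (Q _) (g _ ^ e) = _ * Mn i (a _) (b _) (P _) (Q _) (g _ ^ e)
    rw [pow_mul, pow_add _ 12, ← Mn_mul, (ab z).1, (ab z).2, P3, P3, Q3, Q3, gw, hd]
    simp only [mul_assoc]
  · filter_upwards [P2, Q2] with q h1 h2
    change Mn i (a q) (b q) (P q) (Q q) (g q ^ e) =
      (g q ^ e) ^ D * Mn i (a q) (b q) (ψ q) (ψ⁻¹ q) 1
    simpa [h1, h2] using Mn_mul i (a q) (b q) (ψ q) (ψ⁻¹ q) 1 1 (g q ^ e)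

open Polynomial in
theorem roots {D : ℕ} (c : Fin D → ℂ) {j : Fin D} (h : c j ≠ 0) : ∃ k : ℕ, 0 < k ∧ ∀ x y : ℂ,
    x ≠ 0 → y ≠ 0 → (∀ s : ℕ, ∑ i, c i * ((x ^ s * y) ^ i.1 + (x ^ s * y)⁻¹ ^ i.1) = 0) →
    x ^ k = 1 := by
  classical
  set W : ℂ[X] := ∑ i, C (c i) * (X ^ (D + i) + X ^ (D - i)) with hW
  have W0 : W ≠ 0 := fun e => h (by
    have h1 := congrArg (coeff · (D + j)) e
    simp only [hW, finsetSum_coeff, coeff_C_mul, coeff_add, coeff_X_pow, coeff_zero] at h1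
    rw [Finset.sum_eq_single j (fun i _ hi => by
      have := Fin.val_ne_of_ne hi
      rw [if_neg (by omega), if_neg (by omega), add_zero, mul_zero]) (by simp), if_pos rfl] at h1
    refine (mul_eq_zero.1 h1).resolve_right ?_
    split_ifs <;> norm_num)
  refine ⟨W.roots.toFinset.card.factorial, Nat.factorial_pos _, fun x y hx hy e => ?_⟩
  obtain ⟨s, hs, t, ht, h2, h3⟩ := Finset.exists_ne_map_eq_of_card_lt_of_maps_to
    (s := Finset.range (W.roots.toFinset.card + 1)) (t := W.roots.toFinset) (by simp)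
    (f := fun s => x ^ s * y) fun s _ => by
      have h4 : x ^ s * y ≠ 0 := mul_ne_zero (pow_ne_zero _ hx) hy
      rw [Finset.mem_coe, Multiset.mem_toFinset, mem_roots W0, IsRoot.def, hW, eval_finsetSum,
        ← mul_zero ((x ^ s * y) ^ D), ← e s, Finset.mul_sum]
      refine Finset.sum_congr rfl fun i _ => ?_
      simp only [eval_mul, eval_C, eval_add, eval_pow, eval_X, pow_sub₀ _ h4 i.2.le, inv_pow,
        pow_add]
      ring
  wlog hst : s < t generalizing s t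
  · exact this t ht s hs h2.symm h3.symm (by omega)
  obtain ⟨u, hu⟩ := Nat.dvd_factorial (Nat.sub_pos_of_lt hst)
    (show t - s ≤ W.roots.toFinset.card by have := Finset.mem_range.1 ht; omega)
  rw [hu, pow_mul, pow_sub₀ _ hx hst.le, ← mul_right_cancel₀ hy h3,
    mul_inv_cancel₀ (pow_ne_zero _ hx), one_pow]

open Polynomial in
/-- **finite order** -/
theorem fin_ord {N : ℕ} (hN : 0 < N) (hM : Mero n Ψ) (hT : ∀ z, Ψ (ModularGroup.T • z) = Ψ z)
    (hd : ∀ z, Ψ (dl N • z) = Ψ z) {ρ : ℝ} (hρ : 0 < ρ) (hψ : ∀ z : ℍ, ‖ee z‖ < ρ → Ψ z = ψ (ee z))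
    (aψ : AnalyticAt ℂ ψ 0) (h0 : ψ 0 ≠ 0) (hi : ∀ j : ℕ, ψ ^ j + ψ⁻¹ ^ j ∈ IntA) :
    ∃ k : ℕ, 0 < k ∧ ∀ (γ : SL(2, ℤ)) (c : ℂ), c ≠ 0 → (∀ z, Ψ (γ • z) = c * Ψ z) → c ^ k = 1 := by
  classical
  obtain ⟨a, b, a1, b1, a2, b2, a3, b3, b4, ab⟩ := forms
  obtain ⟨D, p, p0, hp⟩ := rel hN hM hT hd hρ hψ aψ h0 hi a1 b1 a2 b2 a3 b3 b4 fun z => by
    simpa [dl] using ab (dl N) z
  set F : ℂ → ℂ := ∑ i, (fun _ => (p i : ℂ)) *
    Mn i (a ∘ ee) (b ∘ ee) (Ψ ∘ ofComplex) (Ψ ∘ ofComplex)⁻¹ 1 with hF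
  have F0 : ∀ z : ℍ, F z = ∑ i, p i * Mn i (a (ee z)) (b (ee z)) (Ψ z) (Ψ z)⁻¹ 1 := fun z => by
    simp [hF, Mn]
  have an : ∀ {a : ℂ → ℂ}, DifferentiableOn ℂ a (ball 0 1) → ∀ z : ℍ, AnalyticAt ℂ (a ∘ ee) z :=
    fun h z => (h.analyticAt (isOpen_ball.mem_nhds (mem_ball_zero_iff.2 (ee_lt z)))).comp (an_ee z)
  have mF : MeromorphicOn F {z | 0 < z.im} := fun z hz => by
    have h1 := (an a2 ⟨z, hz⟩).meromorphicAt
    have h2 := (an b2 ⟨z, hz⟩).meromorphicAt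
    have h3 := MAt.mero (hM ⟨z, hz⟩)
    exact MeromorphicAt.sum fun i _ => (MeromorphicAt.const _ _).mul (((h1.pow _).mul
      (h2.pow _)).mul (((h3.pow _).add (h3.inv.pow _)).mul ((MeromorphicAt.const 1 _).pow _)))
  obtain ⟨i0, hi0⟩ := Function.ne_iff.1 p0
  set V : ℂ[X] := ∑ i : Fin D, monomial i (p (i, i0.2) : ℂ) with hV
  have V0 : V ≠ 0 := fun h => hi0 (by
    have := congrArg (coeff · i0.1) h
    simpa [hV, coeff_monomial, Fin.val_inj] using this)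
  have ca := (mem_IntA.1 a1).1.continuousAt
  have tV : Tendsto (fun q => b q / a q) (𝓝[≠] 0) (𝓝[≠] 0) := by
    refine tendsto_nhdsWithin_iff.2 ⟨tendsto_nhdsWithin_of_tendsto_nhds ?_, ?_⟩
    · simpa [b3, Pi.div_def] using ((mem_IntA.1 b1).1.continuousAt.div ca (by simp [a3])).tendsto
    · filter_upwards [self_mem_nhdsWithin, nhdsWithin_le_nhds (ball_mem_nhds 0 one_pos),
        nhdsWithin_le_nhds (ca.eventually_ne (a3 ▸ one_ne_zero))] with q h1 h2 h3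
      obtain ⟨z, rfl, -⟩ := ex_ee h1 (mem_ball_zero_iff.1 h2)
      exact div_ne_zero (b4 z) h3
  obtain ⟨q, q1, q2, q3, q4, q5, q6, q7⟩ := ((tV.eventually (nhdsNE_le_cofinite 0
    (finite_setOfPred_isRoot V0).compl_mem_cofinite)).and ((eventually_mem_set.2 self_mem_nhdsWithin).and
    (nhdsWithin_le_nhds ((eventually_mem_set.2 (ball_mem_nhds 0 one_pos)).and
      ((eventually_mem_set.2 (ball_mem_nhds 0 hρ)).eventually_nhds.and (hp.eventually_nhds.and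
      ((ca.eventually_ne (a3 ▸ one_ne_zero)).and
      (aψ.continuousAt.eventually_ne h0)))))))).exists
  obtain ⟨x, rfl, -⟩ := ex_ee q2 (mem_ball_zero_iff.1 q3)
  have F1 : ∀ z : ℍ, Ψ z ≠ 0 → F z = 0 := fun z hz => by
    have h1 : meromorphicOrderAt F z = ⊤ := not_not.1 fun h =>
      mF.meromorphicOrderAt_ne_top_of_isPreconnected (convex_halfSpace_im_gt 0).isPreconnected
        z.im_pos x.im_pos h (meromorphicOrderAt_eq_top_iff.2 (nhdsWithin_le_nhds (ev_coe.2 (by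
          filter_upwards [ev_coe.1 ((an_ee x).continuousAt.eventually (q4.and q5))] with w hw
          rw [F0, hψ w (mem_ball_zero_iff.1 hw.1)]
          simpa [Mn] using hw.2))))
    have h3 := MAt.an ((MAt.val (hM z)).1 hz ▸ hM z)
    have h4 := h3.inv (by simpa using hz)
    have h2 : AnalyticAt ℂ F z := Finset.analyticAt_sum _ fun i _ => analyticAt_const.mul
      ((((an a2 z).pow _).mul ((an b2 z).pow _)).mul (((h3.pow _).add (h4.pow _)).mul
        (analyticAt_const.pow _)))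
    exact tendsto_nhds_unique_of_eventuallyEq (l := 𝓝[≠] (z : ℂ))
      (tendsto_nhdsWithin_of_tendsto_nhds h2.continuousAt) tendsto_const_nhds
      (meromorphicOrderAt_eq_top_iff.1 h1)
  have x0 : Ψ x ≠ 0 := hψ x (mem_ball_zero_iff.1 q4.self_of_nhds) ▸ q7
  obtain ⟨k, k0, hk⟩ := roots (j := i0.2)
    (fun j => ∑ i : Fin D, p (i, j) * (a (ee x) ^ (D - i) * b (ee x) ^ i.1)) fun h => q1 (by
      refine (mul_eq_zero.1 (Eq.trans ?_ h)).resolve_left (pow_ne_zero D q6)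
      rw [hV, eval_finsetSum, Finset.mul_sum]
      refine Finset.sum_congr rfl fun i _ => ?_
      rw [eval_monomial, pow_sub₀ _ q6 i.2.le, div_pow]
      ring)
  refine ⟨k, k0, fun γ c hc h => hk c _ hc x0 fun s => ?_⟩
  have h1 : ∀ s : ℕ, Ψ (γ ^ s • x) = c ^ s * Ψ x := fun s => by
    induction s with
    | zero => simp
    | succ s ih => rw [pow_succ', mul_smul, h, ih, pow_succ', mul_assoc]
  have h5 := F1 _ (h1 s ▸ mul_ne_zero (pow_ne_zero s hc) x0)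
  have h6 := fun (i : Fin D × Fin D) l y y' => Mn_mul i (a (ee x)) (b (ee x)) y y' 1 l 1
  simp only [one_mul, mul_one] at h6
  simp only [F0, (ab _ x).1, (ab _ x).2, h1, h6, mul_left_comm _ (_ ^ D), ← Finset.mul_sum] at h5
  rw [← (mul_eq_zero.1 h5).resolve_left (pow_ne_zero _ (pow_ne_zero _ (denom_ne_zero
    (γ ^ s : SL(2, ℤ)) x))), Fintype.sum_prod_type_right]
  simp only [Finset.sum_mul, Mn, one_pow, mul_one, mul_assoc]

end Vale.Agent.P004Z.Bo
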