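import Vale.Agent.P004Z.Defs

/-! # P004Z, block G4b: Taylor series, and the gain from a second cusp -/

open Complex Filter Topology Metric PowerSeries
open scoped Real

noncomputable section

namespace Vale.Agent.P004Z.Bo

/-- the Taylor series at `0` -/
def tay (g : ℂ → ℂ) : ℂ⟦X⟧ := .mk fun m => (↑m.factorial)⁻¹ * iteratedDeriv m g 0

theorem tay_congr {f g : ℂ → ℂ} (h : f =ᶠ[𝓝 0] g) : tay f = tay g := by
  ext m
  simp only [tay, coeff_mk, h.iteratedDeriv_eq]

theorem tay_mul {f g : ℂ → ℂ} (hf : AnalyticAt ℂ f 0) (hg : AnalyticAt ℂ g 0) :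
    tay (f * g) = tay f * tay g := by
  ext
  simp only [tay, coeff_mk, iteratedDeriv_mul hf.contDiffAt hg.contDiffAt, Finset.mul_sum,
    PowerSeries.coeff_mul, Finset.Nat.sum_antidiagonal_eq_sum_range_succ_mk, Nat.succ_eq_add_one]
  refine Finset.sum_congr rfl fun i hi => ?_
  rw [Nat.cast_choose _ (by grind)]
  field_simp [Nat.factorial_ne_zero]

theorem tay_add {f g : ℂ → ℂ} (hf : AnalyticAt ℂ f 0) (hg : AnalyticAt ℂ g 0) :
    tay (f + g) = tay f + tay g := by
  ext
  simp only [tay, coeff_mk, iteratedDeriv_add hf.contDiffAt hg.contDiffAt, map_add, mul_add]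

theorem tay_const (c : ℂ) : tay (fun _ => c) = C c := by
  ext m
  simp only [tay, coeff_mk, iteratedDeriv_const, coeff_C]
  split_ifs with h <;> simp [h]

theorem tay_zero (g : ℂ → ℂ) : constantCoeff (tay g) = g 0 := by
  simp [tay]

theorem tay_deriv (g : ℂ → ℂ) : tay (deriv g) = d⁄dX ℂ (tay g) := by
  ext m
  simp only [tay, coeff_mk, coeff_derivative, ← iteratedDeriv_succ', Nat.factorial_succ]
  push_cast
  field_simp [Nat.factorial_ne_zero]

theorem tay_id : tay id = X := by
  refine derivative.ext ?_ (by simp [tay_zero])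
  rw [← tay_deriv, deriv_id', tay_const]
  simp

/-- functions analytic at `0` -/
def An : Subring (ℂ → ℂ) where
  carrier := {g | AnalyticAt ℂ g 0}
  mul_mem' := AnalyticAt.mul
  one_mem' := analyticAt_const
  add_mem' := AnalyticAt.add
  zero_mem' := analyticAt_const
  neg_mem' := AnalyticAt.neg

/-- the Taylor series as a homomorphism -/
def tayH : An →+* ℂ⟦X⟧ where
  toFun g := tay g
  map_one' := (tay_const 1).trans (map_one _)
  map_mul' f g := tay_mul f.2 g.2
  map_zero' := (tay_const 0).trans (map_zero _)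
  map_add' f g := tay_add f.2 g.2

/-- series with coefficients in `O` -/
def IntS (O : Subring ℂ) : Subring ℂ⟦X⟧ where
  carrier := {f | ∀ n, coeff n f ∈ O}
  mul_mem' hf hg n := by
    rw [coeff_mul]
    exact sum_mem fun _ _ => mul_mem (hf _) (hg _)
  one_mem' n := by
    rw [coeff_one]
    split_ifs
    exacts [one_mem _, zero_mem _]
  add_mem' hf hg n := add_mem (hf n) (hg n)
  zero_mem' _ := zero_mem _
  neg_mem' hf n := neg_mem (hf n)

/-- analytic functions with integer Taylor coefficients -/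
def IntA : Subring (ℂ → ℂ) := ((IntS ⊥).comap tayH).map An.subtype

theorem mem_IntA {g : ℂ → ℂ} : g ∈ IntA ↔ AnalyticAt ℂ g 0 ∧ tay g ∈ IntS ⊥ :=
  ⟨fun ⟨x, h, e⟩ => e ▸ ⟨x.2, h⟩, fun ⟨h, h'⟩ => ⟨⟨g, h⟩, h', rfl⟩⟩

theorem tay_pow_mul (n : ℕ) {g : ℂ → ℂ} (hg : AnalyticAt ℂ g 0) :
    tay (fun q => q ^ n * g q) = X ^ n * tay g := by
  have := map_pow tayH ⟨id, analyticAt_id⟩ n
  rw [← tay_id, ← show tay (id ^ n) = tay id ^ n from this, ← tay_mul (analyticAt_id.pow n) hg]
  rfl

theorem tay_sum {ι : Type} (s : Finset ι) (p : ι → ℤ) {f : ι → ℂ → ℂ}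
    (hf : ∀ i, AnalyticAt ℂ (f i) 0) :
    tay (fun q => ∑ i ∈ s, p i * f i q) = ∑ i ∈ s, (p i : ℂ⟦X⟧) * tay (f i) := by
  have := map_sum tayH (fun i => (p i : An) * ⟨f i, hf i⟩) s
  simp only [map_mul, map_intCast] at this
  refine (congrArg tay ?_).trans this
  funext q
  simp

theorem tay_le {g : ℂ → ℂ} {ρ M : ℝ} (hρ : 0 < ρ) (hg : DiffContOnCl ℂ g (ball 0 ρ))
    (hM : ∀ q ∈ sphere (0 : ℂ) ρ, ‖g q‖ ≤ M) (n : ℕ) : ‖coeff n (tay g)‖ ≤ M / ρ ^ n := by
  have := norm_iteratedDeriv_le_of_forall_mem_sphere_norm_le n hρ hg hM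
  have h0 : (0 : ℝ) < n.factorial := by positivity
  simp only [tay, coeff_mk, norm_mul, norm_inv, norm_natCast]
  rwa [inv_mul_le_iff₀ h0, ← mul_div_assoc]

theorem norm_ee (z : ℂ) : ‖ee z‖ = Real.exp (-2 * π * z.im) := by
  simp [ee, norm_exp]

theorem ee_add (z w : ℂ) : ee (z + w) = ee z * ee w := by
  rw [ee, mul_add, exp_add]
  rfl

theorem ee_int (k : ℤ) : ee k = 1 := by
  rw [ee, mul_comm]
  exact exp_int_mul_two_pi_mul_I k

/-- `1 / (4 N ^ 2)` -/
def ep (N : ℕ) : ℝ := 1 / (4 * N ^ 2)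

/-- the radius -/
def rd (N : ℕ) : ℝ := Real.exp (-2 * π * ep N)

/-- weight `k` for `z ↦ z / (N z + 1)` -/
def Mo (N k : ℕ) (g : ℂ → ℂ) : Prop := ∀ z : ℂ, ep N ≤ z.im → ep N ≤ (z / (N * z + 1)).im →
  g (ee (z / (N * z + 1))) = (N * z + 1) ^ k * g (ee z)

theorem gain {N k β : ℕ} (hN : 0 < N) {g g1 : ℂ → ℂ} {M : ℝ} (hm : Mo N k g)
    (hd : DiffContOnCl ℂ g1 (ball 0 (rd N))) (he : ∀ q, q ≠ 0 → g q = q ^ β * g1 q)
    (hM : ∀ q ∈ sphere (0 : ℂ) (rd N), ‖g q‖ ≤ M) :
    ‖g1 0‖ ^ (2 * N ^ 2) ≤ M ^ (2 * N ^ 2) * (4 * N) ^ k * Real.exp (-2 * π * β) := by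
  set m := 2 * N ^ 2 with hm'
  have N0 : (0 : ℝ) < N := by exact_mod_cast hN
  have N1 : (1 : ℝ) ≤ N := by exact_mod_cast hN
  have m0 : 0 < m := by positivity
  have mr : (m : ℝ) = 2 * N ^ 2 := by simp [hm']
  have e0 : 0 < ep N := by unfold ep; positivity
  have r0 : 0 < rd N := Real.exp_pos _
  set E := Real.exp (2 * π * ep N * β) with hE
  have hEr : rd N ^ β * E = 1 := by
    rw [rd, ← Real.exp_nat_mul, ← Real.exp_add, ← Real.exp_zero]
    congr 1
    ring
  have h0 : ∀ q ∈ sphere (0 : ℂ) (rd N), ‖g1 q‖ = ‖g q‖ * E := fun q hq => by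
    rw [mem_sphere_zero_iff_norm] at hq
    rw [he q (norm_pos_iff.1 (hq ▸ r0)), norm_mul, norm_pow, hq, mul_right_comm, hEr, one_mul]
  have h1 : ∀ q ∈ closedBall (0 : ℂ) (rd N), ‖g1 q‖ ≤ M * E := fun q hq =>
    norm_le_of_forall_mem_frontier_norm_le isBounded_ball hd (fun q hq => by
      rw [frontier_ball _ r0.ne'] at hq
      rw [h0 q hq]
      exact mul_le_mul_of_nonneg_right (hM q hq) (Real.exp_pos _).le)
      (by rwa [closure_ball _ r0.ne'])
  have M0 : 0 ≤ M * E := (norm_nonneg _).trans (h1 0 (mem_closedBall_self r0.le))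
  have h2 : ∀ z : ℂ, z.im = ep N → |z.re + 1 / N| ≤ ep N →
      ‖g1 (ee z)‖ ≤ M * E * ((4 * N) ^ k * Real.exp (-4 * π * β) * E) := fun z hz hx => by
    have a1 : normSq (N * z + 1) ≤ 2 * (N * ep N) ^ 2 := by
      have : (N * z.re + 1) ^ 2 ≤ (N * ep N) ^ 2 := by
        rw [show N * z.re + 1 = N * (z.re + 1 / N) by field_simp, mul_pow, mul_pow, ← sq_abs (_ + _)]
        gcongr
      simp [normSq_apply, hz]
      linarith
    have a2 : 1 ≤ 4 * N * ‖N * z + 1‖ := by
      have := abs_im_le_norm (N * z + 1)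
      simp only [add_im, mul_im, natCast_re, natCast_im, zero_mul, add_zero, one_im, hz] at this
      rw [abs_of_pos (by positivity)] at this
      calc (1 : ℝ) = 4 * N * (N * ep N) := by unfold ep; field_simp
        _ ≤ _ := by gcongr
    have a3 : (N : ℂ) * z + 1 ≠ 0 := fun h => by simp [h] at a2; linarith
    have a4 : 2 ≤ (z / (N * z + 1)).im := by
      have : (z / (N * z + 1)).im = ep N / normSq (N * z + 1) := by
        rw [div_im, ← sub_div, ← hz]
        congr 1
        simp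
        ring
      rw [this, le_div_iff₀ (normSq_pos.2 a3)]
      refine (mul_le_mul_of_nonneg_left a1 zero_le_two).trans (le_of_eq ?_)
      unfold ep
      field_simp
      norm_num
    have a5 : ep N ≤ 2 := by
      unfold ep
      rw [div_le_iff₀ (by positivity)]
      nlinarith
    have a6 := congrArg norm (hm z hz.ge (a5.trans a4))
    rw [he (ee _) (exp_ne_zero _), norm_mul, norm_mul, norm_pow, norm_pow] at a6
    have a7 : ‖ee (z / (N * z + 1))‖ ^ β ≤ Real.exp (-4 * π * β) := by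
      rw [norm_ee, ← Real.exp_nat_mul]
      refine Real.exp_le_exp.2 ?_
      nlinarith [mul_le_mul_of_nonneg_left a4 (by positivity : 0 ≤ π * β)]
    have a8 := h1 (ee (z / (N * z + 1))) (by
      rw [mem_closedBall_zero_iff, norm_ee]
      exact Real.exp_le_exp.2 (by nlinarith [Real.pi_pos]))
    rw [h0 _ (by rw [mem_sphere_zero_iff_norm, norm_ee, hz, rd])]
    calc ‖g (ee z)‖ * E ≤ (4 * N * ‖N * z + 1‖) ^ k * ‖g (ee z)‖ * E := by
          gcongr
          exact le_mul_of_one_le_left (norm_nonneg _) (one_le_pow₀ a2)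
      _ = (4 * N) ^ k * (‖N * z + 1‖ ^ k * ‖g (ee z)‖) * E := by ring
      _ ≤ (4 * N) ^ k * (Real.exp (-4 * π * β) * (M * E)) * E := by
          rw [← a6]
          gcongr
      _ = _ := by ring
  have nz : ∀ a : ℤ, ‖ee (a / m)‖ = 1 := fun a => by
    rw [norm_ee, show ((a : ℂ) / m) = ((a / m : ℝ) : ℂ) by simp, ofReal_im]
    simp
  have h3 := norm_le_of_forall_mem_frontier_norm_le (U := ball 0 (rd N)) isBounded_ball
    (f := fun q => ∏ a ∈ Finset.range m, g1 (ee ((a : ℤ) / m) * q))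
    (C := (M * E) ^ m * ((4 * N) ^ k * Real.exp (-4 * π * β) * E)) (z := 0) ?_ (fun q hq => ?_)
    (subset_closure (mem_ball_self r0))
  · simp only [mul_zero, Finset.prod_const, Finset.card_range, norm_pow] at h3
    refine h3.trans ?_
    have : E ^ m * Real.exp (-4 * π * β) * E ≤ Real.exp (-2 * π * β) := by
      rw [hE, ← Real.exp_nat_mul, ← Real.exp_add, ← Real.exp_add]
      refine Real.exp_le_exp.2 ?_
      have b1 : m * ep N = 1 / 2 := by rw [mr]; unfold ep; field_simp; norm_num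
      have b2 : ep N ≤ 1 / 2 := by
        unfold ep
        rw [div_le_iff₀ (by positivity)]
        nlinarith
      have b3 : 0 ≤ π * β := by positivity
      have : m * (2 * π * ep N * β) = π * β := by linear_combination 2 * π * β * b1
      nlinarith
    have M1 : 0 ≤ M := nonneg_of_mul_nonneg_left M0 (Real.exp_pos _)
    calc _ = M ^ m * (4 * N) ^ k * (E ^ m * Real.exp (-4 * π * β) * E) := by ring
      _ ≤ _ := by gcongr
  · have mp : ∀ a : ℤ, Set.MapsTo (fun q => ee (a / m) * q) (ball 0 (rd N)) (ball 0 (rd N)) :=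
      fun a q hq => by simpa [nz] using hq
    refine ⟨DifferentiableOn.fun_finsetProd fun a _ => hd.1.comp (by fun_prop) (mp _),
      continuousOn_finsetProd _ fun a _ => hd.2.comp (by fun_prop) ((mp _).closure (by fun_prop))⟩
  · rw [frontier_ball _ r0.ne', mem_sphere_zero_iff_norm] at hq
    obtain ⟨x, rfl⟩ : ∃ x : ℝ, q = ee (x + ep N * I) := ⟨arg q / (2 * π), by
      rw [ee_add]
      conv_lhs => rw [← norm_mul_exp_arg_mul_I q, hq, rd, mul_comm]
      unfold ee
      push_cast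
      congr 2
      · field_simp
      · linear_combination (-2 * π * ep N) * I_mul_I⟩
    set s := round (-(m * (x + 1 / N))) with hs
    have c1 : |x + s / m + 1 / N| ≤ ep N := by
      have := abs_sub_round (-(m * (x + 1 / N)) : ℝ)
      have m1 : (0 : ℝ) < m := by positivity
      rw [show x + s / m + 1 / N = -(-(m * (x + 1 / N)) - s) / m by field_simp; ring, abs_div,
        abs_neg, abs_of_pos m1, div_le_iff₀ m1]
      refine this.trans (le_of_eq ?_)
      rw [mr]
      unfold ep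
      field_simp
      norm_num
    have c2 : (s % m).toNat ∈ Finset.range m := by
      have := Int.emod_lt_of_pos s (show (0 : ℤ) < m by exact_mod_cast m0)
      rw [Finset.mem_range]
      omega
    have c3 : ee ((((s % m).toNat : ℕ) : ℤ) / m) = ee (s / m) := by
      rw [Int.toNat_of_nonneg (Int.emod_nonneg _ (by exact_mod_cast m0.ne')), Int.emod_def,
        ← mul_one (ee (_ / _)), ← ee_int (s / m), ← ee_add]
      congr 1
      have : (m : ℂ) ≠ 0 := by exact_mod_cast m0.ne'
      push_cast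
      field_simp
      ring
    have c4 : (M * E) ^ m = M * E * (M * E) ^ ((Finset.range m).erase (s % m).toNat).card := by
      rw [Finset.card_erase_of_mem c2, Finset.card_range, ← pow_succ', Nat.sub_add_cancel m0]
    have c5 : (s : ℂ) / m = ((s / m : ℝ) : ℂ) := by simp
    rw [← Finset.mul_prod_erase _ _ c2, norm_mul, c3, ← ee_add, norm_prod, c4, mul_right_comm,
      ← Finset.prod_const]
    refine mul_le_mul (h2 _ (by simp [-ofReal_div, c5]) ?_) (Finset.prod_le_prod
      (fun _ _ => norm_nonneg _) fun a _ => h1 _ ?_) (by positivity) (by positivity)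
    · simpa [-ofReal_div, c5, add_comm x] using c1
    · rw [mem_closedBall_zero_iff, norm_mul, nz, hq, one_mul]

end Vale.Agent.P004Z.Bo
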