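import Vale.Agent.P004Z.Bo.An0

/-! # P004Z, block G4b: the algebraicity criterion -/

open Complex Filter Topology Metric PowerSeries
open scoped Real Matrix

noncomputable section

namespace Vale.Agent.P004Z.Bo

attribute [local instance] Matrix.seminormedAddCommGroup

theorem siegel {L α D : ℕ} (hL : 0 < L) (hα : 0 < α) (hD : D * D = (L + 1) * α)
    (A : Matrix (Fin α) (Fin D × Fin D) ℤ) {x : ℝ} (hx : 0 ≤ x)
    (hA : ∀ n i, ‖A n i‖ ≤ Real.exp x) :
    ∃ p : Fin D × Fin D → ℤ, p ≠ 0 ∧ A *ᵥ p = 0 ∧ ∀ i, ‖p i‖ ≤ Real.exp ((2 * D + x) / L) := by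
  obtain ⟨p, h0, h1, h2⟩ := Int.Matrix.exists_ne_zero_int_vec_norm_le A
    (by simp only [Fintype.card_prod, Fintype.card_fin, hD]; nlinarith) (by simpa using hα)
  refine ⟨p, h0, h1, fun i => (norm_le_pi_norm p i).trans (h2.trans ?_)⟩
  have a0 : (0 : ℝ) < α := by positivity
  have l0 : (0 : ℝ) < L := by positivity
  have e : (Fintype.card (Fin α) : ℝ) /
      (Fintype.card (Fin D × Fin D) - Fintype.card (Fin α)) = 1 / L := by
    simp only [Fintype.card_prod, Fintype.card_fin, hD]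
    push_cast
    rw [show ((L : ℝ) + 1) * α - α = L * α by ring]
    field_simp
  rw [e, div_eq_mul_one_div (_ + _), Real.exp_mul]
  refine Real.rpow_le_rpow (by positivity) ?_ (by positivity)
  have d : (D : ℝ) ≤ Real.exp D := by linarith [Real.add_one_le_exp (D : ℝ)]
  rw [two_mul, Real.exp_add, Real.exp_add, Fintype.card_prod, Fintype.card_fin, Nat.cast_mul]
  gcongr
  exact max_le (Real.one_le_exp hx) ((Matrix.norm_le_iff (Real.exp_pos _).le).2 hA)

theorem key {N : ℕ} (hN : 0 < N) {ρ C : ℝ} (hρ : 0 < ρ) (hρ1 : ρ ≤ 1) (hC : 1 ≤ C) (k : ℕ)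
    (f G : (D : ℕ) → Fin D × Fin D → ℂ → ℂ) (H : ℕ → ℂ → ℂ)
    (hf : ∀ D i, f D i ∈ IntA ∧ DiffContOnCl ℂ (f D i) (ball 0 ρ) ∧
      ∀ q ∈ sphere (0 : ℂ) ρ, ‖f D i q‖ ≤ C ^ D)
    (hG : ∀ D i, Mo N (k * D) (G D i) ∧ DiffContOnCl ℂ (G D i) (ball 0 (rd N)) ∧
      (∀ q ∈ sphere (0 : ℂ) (rd N), ‖G D i q‖ ≤ C ^ D) ∧ G D i =ᶠ[𝓝 0] H D * f D i)
    (hH : ∀ D, AnalyticAt ℂ (H D) 0 ∧ H D 0 = 1) :
    ∃ (D : ℕ) (p : Fin D × Fin D → ℤ), p ≠ 0 ∧ ∀ᶠ q in 𝓝 (0 : ℂ), ∑ i, p i * f D i q = 0 := by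
  set m := 2 * N ^ 2 with hm
  obtain ⟨c, c0, rfl⟩ : ∃ c, 0 ≤ c ∧ C = Real.exp c :=
    ⟨Real.log C, Real.log_nonneg hC, (Real.exp_log (by linarith)).symm⟩
  obtain ⟨y, y0, rfl⟩ : ∃ y, 0 ≤ y ∧ ρ = Real.exp (-y) :=
    ⟨-Real.log ρ, neg_nonneg.2 (Real.log_nonpos hρ.le hρ1), by rw [neg_neg, Real.exp_log hρ]⟩
  obtain ⟨L, hL⟩ := exists_nat_gt (m * y)
  have l0 : (0 : ℝ) < L := lt_of_le_of_lt (by positivity) hL
  have L0 : 0 < L := by exact_mod_cast l0
  obtain ⟨t, ht⟩ := exists_nat_gt (m * (4 + 2 * c) + 4 * N * k)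
  have t0 : (0 : ℝ) < t := lt_of_le_of_lt (by positivity) ht
  have T0 : 0 < t := by exact_mod_cast t0
  set D := (L + 1) * t with hD
  set α := (L + 1) * t ^ 2 with hα
  have an := fun i => (mem_IntA.1 (hf D i).1).1
  choose a ha using fun i n => Subring.mem_bot.1 ((mem_IntA.1 (hf D i).1).2 n)
  obtain ⟨p, p0, p1, p2⟩ := siegel (α := α) (D := D) L0 (by positivity) (by rw [hD, hα]; ring)
    (fun n i => a i n) (x := c * D + y * α) (by positivity) (fun n i => by
      have := tay_le hρ (hf D i).2.1 (hf D i).2.2 n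
      rw [← ha, norm_intCast, ← Real.exp_nat_mul, ← Real.exp_nat_mul, ← Real.exp_sub] at this
      refine this.trans (Real.exp_le_exp.2 ?_)
      have : (n : ℝ) ≤ α := by exact_mod_cast n.2.le
      nlinarith)
  refine ⟨D, p, p0, by_contra fun hne => ?_⟩
  have aF : AnalyticAt ℂ (fun q => ∑ i, p i * f D i q) 0 :=
    Finset.analyticAt_fun_sum _ fun i _ => analyticAt_const.mul (an i)
  obtain ⟨β, F, F1, F2, F3⟩ := aF.exists_eventuallyEq_pow_smul_nonzero_iff.2 hne
  simp only [sub_zero, smul_eq_mul] at F3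
  have co : ∀ n, coeff n (X ^ β * tay F) = ((∑ i, a i n * p i : ℤ) : ℂ) := fun n => by
    rw [← tay_pow_mul β F1, ← tay_congr F3, tay_sum _ _ an, map_sum]
    push_cast
    refine Finset.sum_congr rfl fun i _ => ?_
    rw [ha, ← zsmul_eq_mul, map_zsmul, zsmul_eq_mul, mul_comm]
  have cb := co (0 + β)
  rw [coeff_X_pow_mul, coeff_zero_eq_constantCoeff, tay_zero, zero_add] at cb
  have hβ : α ≤ β := not_lt.1 fun h => F2 (by
    rw [cb, show ∑ i, a i β * p i = 0 from congrFun p1 ⟨β, h⟩, Int.cast_zero])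
  have F4 : 1 ≤ ‖F 0‖ := by
    rw [cb, norm_intCast]
    exact_mod_cast Int.one_le_abs (by exact_mod_cast cb ▸ F2)
  have r0 : 0 < rd N := Real.exp_pos _
  set g : ℂ → ℂ := fun q => ∑ i, p i * G D i q with hg
  have dg : DiffContOnCl ℂ g (ball 0 (rd N)) :=
    ⟨DifferentiableOn.fun_sum fun i _ => (hG D i).2.1.1.const_mul _,
      continuousOn_finsetSum _ fun i _ => continuousOn_const.mul (hG D i).2.1.2⟩
  classical
  set g1 : ℂ → ℂ := fun q => if q = 0 then F 0 else g q / q ^ β with hg1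
  have e1 : g1 =ᶠ[𝓝 0] H D * F := by
    filter_upwards [F3, eventually_all.2 fun i => (hG D i).2.2.2] with q h1 h2
    by_cases h : q = 0
    · simp [hg1, h, (hH D).2]
    · simp only [hg1, if_neg h, hg, h2, Pi.mul_apply, mul_left_comm _ (H D q), ← Finset.mul_sum, h1]
      field_simp
  have e2 : ∀ q, q ≠ 0 → g1 =ᶠ[𝓝 q] fun q => g q / q ^ β := fun q h =>
    (eventually_ne_nhds h).mono fun _ h => if_neg h
  have e3 := ((hH D).1.mul F1).congr e1.symm
  have := gain (g := g) (g1 := g1) (k := k * D) (β := β)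
    (M := Real.exp (4 * D + 2 * c * D + y * α / L)) hN
    (fun z h1 h2 => by
      simp only [hg, (hG D _).1 z h1 h2, Finset.mul_sum]
      exact Finset.sum_congr rfl fun i _ => by ring)
    ⟨fun q hq => ?_, fun q hq => ?_⟩ (fun q h => by simp only [hg1, if_neg h]; field_simp)
    (fun q hq => ?_)
  · have n4 : (4 * N : ℝ) ^ (k * D) ≤ Real.exp (4 * N) ^ (k * D) := by
      gcongr
      linarith [Real.add_one_le_exp (4 * N : ℝ)]
    have h1 := ((one_le_pow₀ (show 1 ≤ ‖g1 0‖ by simpa [hg1] using F4)).trans this).trans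
      (mul_le_mul_of_nonneg_right (mul_le_mul_of_nonneg_left n4 (by positivity)) (by positivity))
    rw [← Real.exp_nat_mul, ← Real.exp_nat_mul, ← Real.exp_add, ← Real.exp_add,
      Real.one_le_exp_iff, ← hm] at h1
    have h2 : m * (y * α / L) ≤ α := by
      rw [← mul_div_assoc, div_le_iff₀ l0]
      nlinarith [show (0 : ℝ) ≤ α by positivity]
    have h3 : (α : ℝ) ≤ β := by exact_mod_cast hβ
    have h4 : (α : ℝ) = D * t := by rw [hα, hD]; push_cast; ring
    have h5 : (0 : ℝ) < D := by positivity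
    have h6 := mul_lt_mul_of_pos_left ht h5
    have h7 : 3 * β ≤ π * β := by gcongr; exact Real.pi_gt_three.le
    push_cast at h1
    nlinarith
  · by_cases h : q = 0
    · exact (h ▸ e3.differentiableAt).differentiableWithinAt
    · exact ((dg.1 q hq).fun_div (d := fun q => q ^ β) (by fun_prop)
        (pow_ne_zero _ h)).congr_of_eventuallyEq ((e2 q h).filter_mono nhdsWithin_le_nhds)
        (e2 q h).eq_of_nhds
  · by_cases h : q = 0
    · exact (h ▸ e3.continuousAt).continuousWithinAt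
    · exact ((dg.2 q hq).div (g := fun q => q ^ β) (by fun_prop)
        (pow_ne_zero _ h)).congr_of_eventuallyEq ((e2 q h).filter_mono nhdsWithin_le_nhds)
        (e2 q h).eq_of_nhds
  · have d : (D : ℝ) ≤ Real.exp D := by linarith [Real.add_one_le_exp (D : ℝ)]
    have l1 : (1 : ℝ) ≤ L := by exact_mod_cast L0
    refine (norm_sum_le_of_le _ (n := fun _ => Real.exp (2 * D + c * D + y * α / L) *
      Real.exp c ^ D) fun i _ => ?_).trans ?_
    · rw [norm_mul, norm_intCast]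
      refine mul_le_mul ((p2 i).trans (Real.exp_le_exp.2 ?_)) ((hG D i).2.2.1 q hq) (norm_nonneg _)
        (by positivity)
      rw [← add_assoc, add_div]
      exact add_le_add (div_le_self (by positivity) l1) le_rfl
    · rw [Finset.sum_const, Finset.card_univ, Fintype.card_prod, Fintype.card_fin, nsmul_eq_mul,
        Nat.cast_mul, ← Real.exp_nat_mul]
      calc _ ≤ Real.exp D * Real.exp D * _ := by gcongr
        _ = _ := by
          simp only [← Real.exp_add]
          congr 1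
          ring

end Vale.Agent.P004Z.Bo
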