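import Vale.Agent.P004Z.Bo.An1
import Vale.Agent.P004Z.Bo.Mer

/-! # P004Z, block G4b: modular forms on the disc, clearing of poles -/

open Complex Filter Topology Metric PowerSeries Function.Periodic ModularForm
open UpperHalfPlane hiding I
open scoped Real MatrixGroups

noncomputable section

namespace Vale.Agent.P004Z.Bo

theorem ee_eq (z : ℂ) : ee z = qParam 1 z := by simp [ee, qParam]

theorem ee_lt (z : ℍ) : ‖ee z‖ < 1 := ee_eq z ▸ norm_qParam_lt_one one_pos z.im_pos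

theorem ee_ne (z : ℂ) : ee z ≠ 0 := exp_ne_zero _

theorem an_ee (z : ℂ) : AnalyticAt ℂ ee z := by
  unfold ee
  fun_prop

theorem ex_ee {q : ℂ} (h : q ≠ 0) (h1 : ‖q‖ < 1) : ∃ z : ℍ, ee z = q ∧ |z.re| ≤ 1 / 2 ∧
    (z : ℂ) = invQParam 1 q := by
  refine ⟨⟨_, im_invQParam_pos_of_norm_lt_one one_pos h1 h⟩,
    (ee_eq _).trans (qParam_right_inv one_ne_zero h), ?_, rfl⟩
  have : invQParam 1 q = (arg q / (2 * π) : ℝ) + (-Real.log ‖q‖ / (2 * π) : ℝ) * I := by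
    rw [invQParam, Complex.log]
    push_cast
    field_simp
    linear_combination (Real.log ‖q‖ : ℂ) * I_mul_I
  change |(invQParam 1 q).re| ≤ _
  rw [this, add_re, ofReal_re, re_ofReal_mul, Complex.I_re, mul_zero, add_zero, abs_div,
    abs_of_pos (by positivity : 0 < 2 * π), div_le_iff₀ (by positivity)]
  linarith [abs_arg_le_pi q]

theorem eis {k : ℕ} (hk : 3 ≤ k) (h2 : Even k) (c : ℤ) (hc : -(2 * k / bernoulli k : ℂ) = c) :
    ∃ a : ℂ → ℂ, a ∈ IntA ∧ DifferentiableOn ℂ a (ball 0 1) ∧ a 0 = 1 ∧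
      (∀ z : ℍ, a (ee z) = E hk z) ∧ ∀ (γ : SL(2, ℤ)) (z : ℍ),
        E hk (γ • z) = (γ 1 0 * z + γ 1 1) ^ k * E hk z := by
  have h1 := one_mem_strictPeriods_SL
  have e : tay (cuspFunction 1 (E hk)) = qExpansion 1 (E hk) := rfl
  refine ⟨cuspFunction 1 (E hk), mem_IntA.2
    ⟨ModularFormClass.analyticAt_cuspFunction_zero _ one_pos h1, fun m => ?_⟩, fun q hq =>
    (ModularFormClass.differentiableAt_cuspFunction _ one_pos h1
      (mem_ball_zero_iff.1 hq)).differentiableWithinAt, ?_, fun z => ?_, fun γ z => ?_⟩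
  · rw [e, EisensteinSeries.E_qExpansion_coeff hk h2, hc]
    split_ifs
    exacts [one_mem _, mul_mem (intCast_mem _ _) (natCast_mem _ _)]
  · rw [← tay_zero (cuspFunction 1 (E hk)), e, ← coeff_zero_eq_constantCoeff_apply,
      EisensteinSeries.E_qExpansion_coeff_zero hk h2]
  · rw [ee_eq, SlashInvariantFormClass.eq_cuspFunction _ _ h1 one_ne_zero]
  · have := SlashInvariantForm.slash_action_eqn' (Γ := 𝒮ℒ) (E hk) (γ := γ) ⟨γ, rfl⟩ z
    simpa using this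

theorem forms : ∃ a b : ℂ → ℂ, a ∈ IntA ∧ b ∈ IntA ∧ DifferentiableOn ℂ a (ball 0 1) ∧
    DifferentiableOn ℂ b (ball 0 1) ∧ a 0 = 1 ∧ b 0 = 0 ∧ (∀ z : ℍ, b (ee z) ≠ 0) ∧
    ∀ (γ : SL(2, ℤ)) (z : ℍ), a (ee (γ • z : ℍ)) = (γ 1 0 * z + γ 1 1) ^ 12 * a (ee z) ∧
      b (ee (γ • z : ℍ)) = (γ 1 0 * z + γ 1 1) ^ 12 * b (ee z) := by
  obtain ⟨a, a1, a2, a3, a4, a5⟩ := eis (by norm_num : 3 ≤ 4) (by decide) 240
    (by norm_num [show bernoulli 4 = -1 / 30 by decide +kernel])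
  obtain ⟨b, b1, b2, b3, b4, b5⟩ := eis (by norm_num : 3 ≤ 6) (by decide) (-504)
    (by norm_num [show bernoulli 6 = 1 / 42 by decide +kernel])
  refine ⟨a ^ 3, a ^ 3 - b ^ 2, pow_mem a1 _, sub_mem (pow_mem a1 _) (pow_mem b1 _), a2.pow _,
    (a2.pow _).sub (b2.pow _), by simp [a3], by simp [a3, b3], fun z h => ?_, fun γ z => ?_⟩
  · refine discriminant_ne_zero z ((discriminant_eq_E₄_cube_sub_E₆_sq z).trans ?_)
    rw [← a4, ← b4, show a (ee z) ^ 3 - b (ee z) ^ 2 = 0 from h, zero_div]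
  · simp only [Pi.pow_apply, Pi.sub_apply, a4, b4, a5, b5]
    constructor <;> ring

theorem ext {n : ℍ → ℤ} {Ψ : ℍ → ℂ} (hM : Mero n Ψ) (hT : ∀ z, Ψ (ModularGroup.T • z) = Ψ z)
    {ψ g : ℂ → ℂ} {ρ y : ℝ} (hρ : 0 < ρ) (hψ : ∀ z : ℍ, ‖ee z‖ < ρ → Ψ z = ψ (ee z))
    (aψ : AnalyticAt ℂ ψ 0) (dg : DifferentiableOn ℂ g (ball 0 1)) {e : ℕ} (hy : 0 < y)
    (hg : ∀ w : ℍ, |w.re| ≤ 1 / 2 → y < w.im → n w = 0 ∨ g (ee w) = 0 ∧ (n w).natAbs < e) :
    ∃ P : ℂ → ℂ, DifferentiableOn ℂ P (ball 0 (Real.exp (-2 * π * y))) ∧ P =ᶠ[𝓝 0] g ^ e * ψ ∧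
      ∀ z : ℍ, P (ee z) = g (ee z) ^ e * Ψ z := by
  classical
  set f : ℂ → ℂ := (g ∘ ee) ^ e * Ψ ∘ ofComplex with hf
  have pf : Function.Periodic f ((1 : ℝ) : ℂ) := fun z => by
    have : ee (z + (1 : ℝ)) = ee z := by simpa [ee_add] using congrArg (ee z * ·) (ee_int 1)
    simp only [hf, Pi.mul_apply, Pi.pow_apply, Function.comp_apply, this]
    congr 1
    by_cases h : 0 < z.im
    · rw [← hT (ofComplex z), modular_T_smul, ofComplex_apply_of_im_pos h,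
        ofComplex_apply_of_im_pos (show 0 < (z + (1 : ℝ)).im by simpa using h)]
      congr 1
      ext
      simp [add_comm]
    · rw [ofComplex_apply_eq_of_im_nonpos (by simpa using h) (not_lt.1 h)]
  set P : ℂ → ℂ := fun q => if q = 0 then g 0 ^ e * ψ 0 else Function.Periodic.cuspFunction 1 f q
    with hP
  have h1 : ∀ z : ℍ, P (ee z) = g (ee z) ^ e * Ψ z := fun z => by
    simp only [hP, if_neg (ee_ne _)]
    rw [ee_eq, pf.eq_cuspFunction one_ne_zero, ← ee_eq]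
    simp [hf]
  have h2 : P =ᶠ[𝓝 0] g ^ e * ψ := by
    filter_upwards [ball_mem_nhds 0 hρ, ball_mem_nhds 0 one_pos] with q h3 h4
    by_cases h : q = 0
    · simp [hP, h]
    obtain ⟨z, rfl, -⟩ := ex_ee h (mem_ball_zero_iff.1 h4)
    rw [h1, hψ z (mem_ball_zero_iff.1 h3)]
    rfl
  have ag := fun q hq => dg.analyticAt (isOpen_ball.mem_nhds (mem_ball_zero_iff.2 hq : q ∈ _))
  refine ⟨P, fun q hq => DifferentiableAt.differentiableWithinAt ?_, h2, h1⟩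
  by_cases h : q = 0
  · exact h ▸ ((((ag 0 (by simp)).pow e).mul aψ).congr h2.symm).differentiableAt
  rw [mem_ball_zero_iff] at hq
  obtain ⟨z, rfl, h3, -⟩ := ex_ee h
    (hq.trans (Real.exp_lt_one_iff.2 (by nlinarith [mul_pos Real.pi_pos hy])))
  rw [norm_ee, Real.exp_lt_exp] at hq
  refine DifferentiableAt.congr_of_eventuallyEq (f := Function.Periodic.cuspFunction 1 f) ?_
    ((eventually_ne_nhds h).mono fun _ h => if_neg h)
  rw [ee_eq]
  exact pf.differentiableAt_cuspFunction one_ne_zero (MAt.clear (hM z)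
    ((ag _ (ee_lt z)).comp (an_ee z)) (hg z h3 (by
      change y < (z : ℂ).im
      nlinarith [Real.pi_pos]))).differentiableAt

/-- the monomials -/
def Mn {R : Type} [CommRing R] {D : ℕ} (i : Fin D × Fin D) (a b x y h : R) : R :=
  a ^ (D - i.1) * b ^ i.1.1 * ((x ^ i.2.1 + y ^ i.2.1) * h ^ (D - i.2))

theorem Mn_mul {D : ℕ} (i : Fin D × Fin D) (a b x y h l m : ℂ) :
    Mn i (l * a) (l * b) (m * x) (m * y) (m * h) = (l * m) ^ D * Mn i a b x y h := by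
  have h1 : l ^ D = l ^ (D - i.1) * l ^ i.1.1 := by rw [← pow_add, Nat.sub_add_cancel i.1.2.le]
  have h2 : m ^ D = m ^ (D - i.2) * m ^ i.2.1 := by rw [← pow_add, Nat.sub_add_cancel i.2.2.le]
  simp only [Mn, mul_pow]
  rw [h1, h2]
  ring

theorem Mn_le {D : ℕ} (i : Fin D × Fin D) {a b x y h : ℂ} {C : ℝ} (ha : ‖a‖ ≤ C) (hb : ‖b‖ ≤ C)
    (hx : ‖x‖ ≤ C) (hy : ‖y‖ ≤ C) (hh : ‖h‖ ≤ C) : ‖Mn i a b x y h‖ ≤ (2 * C ^ 2) ^ D := by
  have C0 := (norm_nonneg _).trans ha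
  have h1 : C ^ D = C ^ (D - i.1) * C ^ i.1.1 := by rw [← pow_add, Nat.sub_add_cancel i.1.2.le]
  have h2 : C ^ D = C ^ (D - i.2) * C ^ i.2.1 := by rw [← pow_add, Nat.sub_add_cancel i.2.2.le]
  have h3 : (2 : ℝ) ≤ 2 ^ D := le_self_pow₀ one_le_two i.1.pos.ne'
  calc _ ≤ C ^ (D - i.1) * C ^ i.1.1 * ((C ^ i.2.1 + C ^ i.2.1) * C ^ (D - i.2)) := by
        simp only [Mn, norm_mul, norm_pow]
        gcongr
        refine (norm_add_le _ _).trans ?_
        simp only [norm_pow]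
        gcongr
    _ = 2 * (C ^ D * C ^ D) := by
        nth_rw 2 [h2]
        rw [h1]
        ring
    _ ≤ _ := by
        rw [mul_pow, sq, mul_pow]
        gcongr

theorem Mn_diff {D : ℕ} (i : Fin D × Fin D) {a b x y h : ℂ → ℂ} {U : Set ℂ}
    (ha : DifferentiableOn ℂ a U) (hb : DifferentiableOn ℂ b U) (hx : DifferentiableOn ℂ x U)
    (hy : DifferentiableOn ℂ y U) (hh : DifferentiableOn ℂ h U) :
    DifferentiableOn ℂ (Mn i a b x y h) U :=
  ((ha.pow _).mul (hb.pow _)).mul (((hx.pow _).add (hy.pow _)).mul (hh.pow _))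

theorem bound5 {a b x y h : ℂ → ℂ} {K : Set ℂ} (hK : IsCompact K) (ha : ContinuousOn a K)
    (hb : ContinuousOn b K) (hx : ContinuousOn x K) (hy : ContinuousOn y K)
    (hh : ContinuousOn h K) : ∃ C : ℝ, ∀ C', C ≤ C' → ∀ (D : ℕ) (i : Fin D × Fin D), ∀ q ∈ K,
      ‖Mn i a b x y h q‖ ≤ (2 * C' ^ 2) ^ D := by
  obtain ⟨C, hC⟩ := hK.exists_bound_of_continuousOn
    (ha.prodMk (hb.prodMk (hx.prodMk (hy.prodMk hh))))
  refine ⟨C, fun C' e D i q hq => ?_⟩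
  have := (hC q hq).trans e
  simp only [Prod.norm_mk, max_le_iff] at this
  exact Mn_le i this.1 this.2.1 this.2.2.1 this.2.2.2.1 this.2.2.2.2

end Vale.Agent.P004Z.Bo
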